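import Claimed.Agent.R256.Nm.Grd.Root
import Claimed.Agent.R256.Nm.Pha.Rep

/-!
# Row 256 (S0496), unit NM, block GRD-IN, file 5: ASSEMBLY OF `nm_gr_in`      (architect helper190; prefix `nm_grd_`)

* `nm_grd_rep`   ENTRY from PHA (helper143): Lemma names:common-phase with a slack UNIFORM ON THE PATCH (`h0` of `nm_gr_in` is chosen before the grid roots).
* `nm_grd_of`    ONE configuration: `LayGr.In` from the list relations of `Root.lean` at the roots of the grid.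
* `nm_grd_in`    = `nm_gr_in` of `Nm/Grid.lean` for EVERY bound `B0 ≥ 3` of the stored marks (with `layGrOf` and the unfolded patch).
-/

set_option autoImplicit false

namespace Claimed.Agent.R256

open Claimed.Agent.R255
open Claimed.Agent.R255.FLaw (pair)
open Classical

noncomputable section

/-- **ENTRY from PHA**: `nm_rep` with a slack which is uniform on a closed rectangle of admissible roots = `nm_pha_rep_patch` (helper143, `Pha/Rep.lean`) -/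
theorem nm_grd_rep (π : SfPar) (hπ : π.Valid) (C0 τ κ0 : ℝ) : ∃ Λ K0 : ℝ, ∀ (r0 : NmRt) (a0 a1 v0 v1 : ℝ),
    (∀ a v : ℝ, a0 ≤ a → a ≤ a1 → v0 ≤ v → v ≤ v1 → NmRt.Ok { r0 with a := a, v := v } π Λ) → ∃ e : ℝ, 0 < e ∧
    ∀ a v : ℝ, a0 ≤ a → a ≤ a1 → v0 ≤ v → v ≤ v1 → NmA π C0 τ κ0 fun _ D => NmRep D π { r0 with a := a, v := v } K0 e :=
  nm_pha_rep_patch π hπ C0 τ κ0

/-- **one configuration** -/
theorem nm_grd_of (D : SfDoc) (π : SfPar) (hπ : π.Valid) (r : NmRt) (A B M na nv : ℕ) (K Kf RQ RX Λ K0 e0 N0 : ℝ)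
    (hs : 0 < D.s ∧ D.s < 1) (hh : 0 < r.h) (hB : 3 ≤ r.B)
    (hK0 : 0 ≤ K) (hK : K ≤ Kf) (hRQ : RQ ≤ Kf) (hBk : Kf + 2 ≤ B) (hRm : 2 * Kf + 2 ≤ r.Rm) (hA : r.Rm + 2 ≤ min 1 (r.c π) * A)
    (hsl : r.q.ds.cut = NmCut.slope → r.Rm + 2 ≤ (r.q.ds.bs - 1) * A)
    (hok : ∀ i ≤ na, ∀ k ≤ nv, NmRt.Ok { r with a := r.a + i * (A * r.h), v := r.v + k * (B * r.h) } π Λ)
    (hrep : ∀ i ≤ na, ∀ k ≤ nv, NmRep D π { r with a := r.a + i * (A * r.h), v := r.v + k * (B * r.h) } K0 e0)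
    (hT : ∀ i ≤ na, ∀ ω, (D.P 1).p ω ≠ 0 → |(D.raw π r.q.ds ω).Te - (D.raw π r.q.ds ω).T| ≤ D.s ^ (r.a + i * (A * r.h)))
    (he0 : r.Rm * r.h ≤ e0)
    (hcl : r.σ.lin = true → r.q.ds.cut ≠ NmCut.none → ∀ i ≤ na, ∀ k ≤ nv,
      r.Rm * r.h ≤ r.q.ds.b (r.a + i * (A * r.h)) + (r.v + k * (B * r.h)) - π.b1 (r.a + i * (A * r.h)))
    (hN1 : nmK1 ≤ N0) (hN2 : K0 * 15 ≤ N0) (hN3 : K0 ≤ N0) (hN4 : (24 * (r.B + 1) ^ 2 + 3) ^ 5 ≤ N0)
    (hRX : (4 * r.B + 3) ^ 3 + 1 ≤ (D.s ^ r.h) ^ (-(RX - 3 * r.Rm))) (hδ : 100 * (D.s ^ r.h) ^ r.Rm ≤ 1)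
    (dsp : ℝ → ℝ → ℝ → NmNm → NmNm → ItDsp) :
    (layGrOf D π r (fun a v => D.cst π { r with a := a, v := v }) (fun a v => D.fst π { r with a := a, v := v }) dsp A B M).In
      na nv K Kf RQ RX (r.B + 1) N0 := by
  have hδ0 : 0 < D.s ^ r.h := Real.rpow_pos_of_pos hs.1 _
  have hδ1 : D.s ^ r.h < 1 := Real.rpow_lt_one hs.1.le hs.2 hh
  have hKf : 0 ≤ Kf := hK0.trans hK
  have hRm0 : 0 ≤ r.Rm := by linarith
  have hK1 : (1 : ℝ) ≤ nmK1 := by unfold nmK1; norm_num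
  have hKK : nmK0 ≤ nmK1 := by unfold nmK0 nmK1; norm_num
  have h15 : (15 : ℝ) ^ 6 ≤ nmK1 := by unfold nmK1; norm_num
  have h8 : (8 : ℝ) ≤ nmK1 := by unfold nmK1; norm_num
  have hBh : (Kf + 2) * r.h ≤ B * r.h := mul_le_mul_of_nonneg_right hBk hh.le
  have hA0 : (0 : ℝ) ≤ A := Nat.cast_nonneg A
  have hAh : 0 ≤ A * r.h := mul_nonneg hA0 hh.le
  have hpe : ∀ p : ℝ, p ≤ K → p * r.h ≤ e0 := fun p hp => by
    have : p * r.h ≤ r.Rm * r.h := mul_le_mul_of_nonneg_right (by linarith) hh.le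
    linarith
  refine ⟨⟨hδ0, hδ1⟩, hK1.trans hN1, ⟨hK0, hK, hRQ⟩, ?_, ?_, ?_, ?_, ?_, ?_, ?_, ?_, ?_, ?_, ?_, ?_, ?_, ?_⟩
  · -- bdF
    intro i hi k hk ω hω
    have h1 := nm_gf_bdF D π { r with a := r.a + i * (A * r.h), v := r.v + k * (B * r.h) } hs (hok i hi k hk).g0 ω hω
    exact h1.trans (by linarith)
  · -- bdM
    intro i hi ω _
    exact nm_go_store_bd hδ0 hδ1 hRm0 (by linarith) _
  · -- lin0
    intro hq i k x
    have hq' : (!r.σ.lin) = false := hq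
    show (D.fst π { r with a := r.a + i * (A * r.h), v := r.v + k * (B * r.h) } x).P = 0
    unfold SfDoc.fst
    cases D.rpr π r.q r.σ (r.a + i * (A * r.h)) x with
    | none => rfl
    | some ω =>
      show (NmRaw.phase _ _ _ _ _ _ (!r.σ.lin) _).P = 0
      rw [hq']
      rfl
  · -- mkfin
    intro i _
    obtain ⟨S, hS, hm⟩ := nm_go_store_fin (RX := RX) hδ0 hδ1 hRm0 (show (0 : ℝ) ≤ r.B by linarith) hRX
    exact ⟨S, hS, fun ω => hm _⟩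
  · -- wnest
    intro i hi k hk
    have hq := nm_fam_ok π hπ _ (hok i hi k hk.le).q
    refine nm_gk_mono _ (nm_gf_wnest D π { r with a := r.a + i * (A * r.h), v := r.v + k * (B * r.h) } hs hq
      (r.v + ((k + 1 : ℕ) : ℝ) * (B * r.h)) ?_) (hKK.trans hN1)
    show r.v + k * (B * r.h) ≤ r.v + ((k + 1 : ℕ) : ℝ) * (B * r.h)
    push_cast
    nlinarith [hBh]
  · -- wphase
    intro i hi k hk
    have hq := nm_fam_ok π hπ _ (hok i hi k hk.le).q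
    refine nm_gk_mono _ (nm_gf_wphase D π { r with a := r.a + i * (A * r.h), v := r.v + k * (B * r.h) } hs hq (hok i hi k hk.le).g0 hh
      (r.v + ((k + 1 : ℕ) : ℝ) * (B * r.h)) Kf hKf ?_ ?_) (h15.trans hN1)
    · show Kf * r.h ≤ r.v + ((k + 1 : ℕ) : ℝ) * (B * r.h) - (r.v + k * (B * r.h))
      push_cast
      nlinarith [hBh]
    · intro hl
      have e1 := ((hok i hi k hk.le).brq hl).2
      have e2 := ((hok i hi (k + 1) hk).brq hl).2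
      show r.q.l π (r.a + i * (A * r.h)) (r.v + k * (B * r.h)) + (r.v + ((k + 1 : ℕ) : ℝ) * (B * r.h) - (r.v + k * (B * r.h)))
        ≤ r.q.l π (r.a + i * (A * r.h)) (r.v + ((k + 1 : ℕ) : ℝ) * (B * r.h))
      have e1' : r.q.l π (r.a + i * (A * r.h)) (r.v + k * (B * r.h)) = r.q.ds.b (r.a + i * (A * r.h)) + (r.v + k * (B * r.h)) := e1
      have e2' : r.q.l π (r.a + i * (A * r.h)) (r.v + ((k + 1 : ℕ) : ℝ) * (B * r.h))
          = r.q.ds.b (r.a + i * (A * r.h)) + (r.v + ((k + 1 : ℕ) : ℝ) * (B * r.h)) := e2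
      rw [e1', e2']
      linarith
  · -- rep1
    intro i hi k hk
    exact nm_gk_mono _ (hrep i hi k hk).rep1 hN3
  · -- rep2
    intro i hi k hk
    exact nm_gk_mono _ (hrep i hi k hk).rep2 hN3
  · -- ang1
    intro i hi k hk p hp0 hpK
    exact nm_gk_mono _ (nm_gf_ang1 D π { r with a := r.a + i * (A * r.h), v := r.v + k * (B * r.h) } hs K0 e0 (hrep i hi k hk) hh p hp0
      (hpe p hpK)) hN2
  · -- ang2
    intro i hi k hk p hp0 hpK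
    exact nm_gk_mono _ (nm_gf_ang2 D π { r with a := r.a + i * (A * r.h), v := r.v + k * (B * r.h) } hs K0 e0 (hrep i hi k hk) hh p hp0
      (hpe p hpK)) (h8.trans hN1)
  · -- tnest
    intro i hi k hk
    have hq := nm_fam_ok π hπ _ (hok i hi.le k hk).q
    refine nm_gk_mono _ (nm_nval_up D π hq hs.1 hs.2 (a := r.a + i * (A * r.h)) (a' := r.a + ((i + 1 : ℕ) : ℝ) * (A * r.h))
      (v := r.v + k * (B * r.h)) (v' := r.v + k * (B * r.h)) ?_ le_rfl) (hKK.trans hN1)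
    push_cast
    nlinarith [hAh]
  · -- read
    intro i hi k hk
    have hq := nm_fam_ok π hπ _ (hok i hi.le k hk).q
    have hda : r.a + ((i + 1 : ℕ) : ℝ) * (A * r.h) - (r.a + i * (A * r.h)) = A * r.h := by push_cast; ring
    have hmin1 : min 1 (r.c π) * A ≤ 1 * A := mul_le_mul_of_nonneg_right (min_le_left _ _) hA0
    have hmin2 : min 1 (r.c π) * A ≤ r.c π * A := mul_le_mul_of_nonneg_right (min_le_right _ _) hA0
    refine nm_gk_mono _ (nm_gf_read D π { r with a := r.a + i * (A * r.h), v := r.v + k * (B * r.h) } hs hπ Λ K0 e0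
      (r.a + ((i + 1 : ℕ) : ℝ) * (A * r.h)) RQ (hok i hi.le k hk) (hok (i + 1) hi k hk) (hrep i hi.le k hk) ?_ (hT (i + 1) hi) hh hB hRm0
      (by linarith) (nm_gk_pow hs.1 hs.2 he0) ?_ ?_ ?_ ?_ hδ) hN1
    · show r.a + i * (A * r.h) ≤ r.a + ((i + 1 : ℕ) : ℝ) * (A * r.h)
      linarith
    · show D.s ^ (r.a + ((i + 1 : ℕ) : ℝ) * (A * r.h) - (r.a + i * (A * r.h))) ≤ (D.s ^ r.h) ^ r.Rm
      rw [hda]
      exact nm_gk_pow hs.1 hs.2 (mul_le_mul_of_nonneg_right (by linarith) hh.le)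
    · show D.s ^ (r.c π * (r.a + ((i + 1 : ℕ) : ℝ) * (A * r.h) - (r.a + i * (A * r.h)))) ≤ (D.s ^ r.h) ^ r.Rm
      rw [hda, ← mul_assoc]
      exact nm_gk_pow hs.1 hs.2 (mul_le_mul_of_nonneg_right (by linarith) hh.le)
    · intro hc
      show D.s ^ ((r.q.ds.bs - 1) * (r.a + ((i + 1 : ℕ) : ℝ) * (A * r.h) - (r.a + i * (A * r.h)))) ≤ (D.s ^ r.h) ^ r.Rm
      rw [hda, ← mul_assoc]
      exact nm_gk_pow hs.1 hs.2 (mul_le_mul_of_nonneg_right (by linarith [hsl hc]) hh.le)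
    · intro hl
      show (⟨D.s, π, r.q, r.a + i * (A * r.h), r.v + k * (B * r.h), r.a + ((i + 1 : ℕ) : ℝ) * (A * r.h), r.v + k * (B * r.h)⟩ : NmG).cs
        * D.s ^ (r.v + k * (B * r.h) - r.q.l π (r.a + i * (A * r.h)) (r.v + k * (B * r.h))) ≤ (D.s ^ r.h) ^ r.Rm
      by_cases hc : r.q.ds.cut = NmCut.none
      · rw [nm_gc_cs_none hc, zero_mul]
        exact Real.rpow_nonneg hδ0.le _
      · rw [nm_gc_cs_eq hc]
        have hb1 : r.q.l π (r.a + i * (A * r.h)) (r.v + k * (B * r.h)) = π.b1 (r.a + i * (A * r.h)) := by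
          rcases (hok i hi.le k hk).brl hl with h | ⟨-, h, h'⟩
          · exact absurd (hq.pl h) hc
          · have h2 : r.q.tp = NmTp.clip := h
            have h3 : π.b1 (r.a + i * (A * r.h)) < r.q.ds.b (r.a + i * (A * r.h)) + (r.v + k * (B * r.h)) := h'
            unfold NmQ.l
            rw [h2]
            exact min_eq_right h3.le
        rw [hb1]
        show D.s ^ (r.q.ds.b (r.a + i * (A * r.h))) * _ ≤ _
        rw [← Real.rpow_add hs.1]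
        refine nm_gk_pow hs.1 hs.2 ?_
        have := hcl hl hc i hi.le k hk
        linarith
  · -- qlist
    intro i hi k hk
    exact nm_gk_mono _ (nm_gf_qlist D π { r with a := r.a + i * (A * r.h), v := r.v + k * (B * r.h) } hs (hok i hi k hk).g0 hh
      (show (0 : ℝ) ≤ r.B by linarith) hRm0 Kf RQ hKf hRQ) hN4
  · -- acap
    intro k hk
    have h1 := nm_gf_acap D π { r with a := r.a + ((0 : ℕ) : ℝ) * (A * r.h), v := r.v + k * (B * r.h) } hs K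
    refine nm_gk_mono _ h1 ?_
    show 2 * (D.s ^ r.h) ^ (-K) + 2 ≤ N0 * (D.s ^ r.h) ^ (-K)
    have h2 : 1 ≤ (D.s ^ r.h) ^ (-K) := Real.one_le_rpow_of_pos_of_le_one_of_nonpos hδ0 hδ1.le (by linarith)
    have h3 : (4 : ℝ) ≤ N0 := le_trans (by unfold nmK1; norm_num) hN1
    nlinarith

/-- the slack of a strictly clipped branch is uniform on a rectangle (an affine function) -/
theorem nm_grd_clip (π : SfPar) (ds : NmDs) (a0 a1 v0 v1 : ℝ) (ha : a0 ≤ a1) (hv : v0 ≤ v1)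
    (h : ∀ a v : ℝ, a0 ≤ a → a ≤ a1 → v0 ≤ v → v ≤ v1 → π.b1 a < ds.b a + v) :
    ∃ e1 : ℝ, 0 < e1 ∧ ∀ a v : ℝ, a0 ≤ a → a ≤ a1 → v0 ≤ v → v ≤ v1 → e1 ≤ ds.b a + v - π.b1 a := by
  have h1 := h a0 v0 le_rfl ha le_rfl hv
  have h2 := h a1 v0 ha le_rfl le_rfl hv
  refine ⟨min (ds.b a0 + v0 - π.b1 a0) (ds.b a1 + v0 - π.b1 a1), lt_min (by linarith) (by linarith), fun a v g1 g2 g3 _ => ?_⟩
  unfold NmDs.b SfPar.b1 at *
  rcases le_total 0 (ds.bs - (π.q - π.J)) with hb | hb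
  · refine (min_le_left _ _).trans ?_
    nlinarith [mul_nonneg hb (sub_nonneg.2 g1)]
  · refine (min_le_right _ _).trans ?_
    nlinarith [mul_nonneg (sub_nonneg.2 hb) (sub_nonneg.2 g2)]

/-- **`nm_gr_in`** for every bound `B0 ≥ 3` of the stored marks -/
theorem nm_grd_in (π : SfPar) (hπ : π.Valid) (C0 τ κ0 : ℝ) : ∃ Λ : ℝ, ∀ B0 : ℝ, 3 ≤ B0 → ∀ (r0 : NmRt) (a0 a1 v0 v1 : ℝ),
    (a0 < a1 ∧ v0 < v1 ∧ ∀ a v : ℝ, a0 ≤ a → a ≤ a1 → v0 ≤ v → v ≤ v1 → NmRt.Ok { r0 with a := a, v := v } π Λ) → r0.B = B0 →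
    ∀ (A B M : ℕ) (K Kf RQ RX : ℝ), 0 ≤ K → K ≤ Kf → RQ ≤ Kf → Kf + 2 ≤ B → 2 * Kf + 2 ≤ r0.Rm → r0.Rm + 2 ≤ min 1 (r0.c π) * A →
    (r0.q.ds.cut = NmCut.slope → r0.Rm + 2 ≤ (r0.q.ds.bs - 1) * A) → 3 * r0.Rm < RX →
    ∃ h0 : ℝ, 0 < h0 ∧ ∀ h : ℝ, 0 < h → h < h0 → ∀ (x0 y0 : ℝ) (na nv : ℕ), a0 ≤ x0 → v0 ≤ y0 → x0 + na * (A * h) ≤ a1 → y0 + nv * (B * h) ≤ v1 →
    NmA π C0 τ κ0 fun e D => ∀ dsp : ℝ → ℝ → ℝ → NmNm → NmNm → ItDsp,
      (layGrOf D π { r0 with a := x0, v := y0, h := h } (fun a v => D.cst π { { r0 with a := x0, v := y0, h := h } with a := a, v := v })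
        (fun a v => D.fst π { { r0 with a := x0, v := y0, h := h } with a := a, v := v }) dsp A B M).In
        na nv K Kf RQ RX (B0 + 1) ((D.s ^ h) ^ (-e)) := by
  obtain ⟨Λ, K0, hrep⟩ := nm_grd_rep π hπ C0 τ κ0
  refine ⟨Λ, ?_⟩
  intro B0 hB0 r0 a0 a1 v0 v1 ⟨ha01, hv01, hpatch⟩ hB A B M K Kf RQ RX hK0 hK hRQ hBk hRm hA hsl hRX
  obtain ⟨e0, he0, hrep'⟩ := hrep r0 a0 a1 v0 v1 hpatch
  have hok0 := hpatch a0 v0 le_rfl ha01.le le_rfl hv01.le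
  have hfam : r0.q.Fam π := hok0.q
  have hq : r0.q.Ok π := nm_fam_ok π hπ _ hfam
  have ha1 : a1 < r0.q.ds.De := (hpatch a1 v0 ha01.le le_rfl le_rfl hv01.le).ha.2
  have hRm0 : 0 < r0.Rm := by linarith
  -- the clip slack
  obtain ⟨e1, he1, hclip⟩ : ∃ e1 : ℝ, 0 < e1 ∧ (r0.σ.lin = true → r0.q.ds.cut ≠ NmCut.none →
      ∀ a v : ℝ, a0 ≤ a → a ≤ a1 → v0 ≤ v → v ≤ v1 → e1 ≤ r0.q.ds.b a + v - π.b1 a) := by
    by_cases hc : r0.σ.lin = true ∧ r0.q.ds.cut ≠ NmCut.none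
    · obtain ⟨e1, he1, h⟩ := nm_grd_clip π r0.q.ds a0 a1 v0 v1 ha01.le hv01.le (fun a v g1 g2 g3 g4 => by
        rcases (hpatch a v g1 g2 g3 g4).brl hc.1 with h | ⟨-, -, h⟩
        · exact absurd (hq.pl h) hc.2
        · exact h)
      exact ⟨e1, he1, fun _ _ => h⟩
    · exact ⟨1, one_pos, fun h1 h2 => absurd ⟨h1, h2⟩ hc⟩
  refine ⟨min e0 e1 / r0.Rm, div_pos (lt_min he0 he1) hRm0, ?_⟩
  intro h hh hh0 x0 y0 na nv hx0 hy0 hna hnv
  have hRh : r0.Rm * h ≤ min e0 e1 := by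
    rw [lt_div_iff₀ hRm0] at hh0
    linarith
  have hAh : (0 : ℝ) ≤ A * h := mul_nonneg (Nat.cast_nonneg A) hh.le
  have hBh : (0 : ℝ) ≤ B * h := mul_nonneg (Nat.cast_nonneg B) hh.le
  have hia : ∀ i : ℕ, i ≤ na → a0 ≤ x0 + i * (A * h) ∧ x0 + i * (A * h) ≤ a1 := fun i hi => by
    have h1 : (i : ℝ) ≤ na := by exact_mod_cast hi
    have h2 : (i : ℝ) * (A * h) ≤ na * (A * h) := mul_le_mul_of_nonneg_right h1 hAh
    have h3 : (0 : ℝ) ≤ i * (A * h) := mul_nonneg (Nat.cast_nonneg i) hAh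
    constructor <;> linarith
  have hkv : ∀ k : ℕ, k ≤ nv → v0 ≤ y0 + k * (B * h) ∧ y0 + k * (B * h) ≤ v1 := fun k hk => by
    have h1 : (k : ℝ) ≤ nv := by exact_mod_cast hk
    have h2 : (k : ℝ) * (B * h) ≤ nv * (B * h) := mul_le_mul_of_nonneg_right h1 hBh
    have h3 : (0 : ℝ) ≤ k * (B * h) := mul_nonneg (Nat.cast_nonneg k) hBh
    constructor <;> linarith
  -- the three TYPE A inputs
  have I1 : NmA π C0 τ κ0 fun _ D => ∀ x ∈ (Finset.range (na + 1)) ×ˢ (Finset.range (nv + 1)),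
      NmRep D π { r0 with a := x0 + (x.1 : ℕ) * (A * h), v := y0 + (x.2 : ℕ) * (B * h) } K0 e0 := by
    refine nm_gk_A_fin _ (fun (x : ℕ × ℕ) _ D => NmRep D π { r0 with a := x0 + (x.1 : ℕ) * (A * h), v := y0 + (x.2 : ℕ) * (B * h) } K0 e0) ?_
    intro x hx
    obtain ⟨hx1, hx2⟩ := Finset.mem_product.1 hx
    have g1 := hia x.1 (Nat.lt_succ_iff.1 (Finset.mem_range.1 hx1))
    have g2 := hkv x.2 (Nat.lt_succ_iff.1 (Finset.mem_range.1 hx2))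
    exact hrep' _ _ g1.1 g1.2 g2.1 g2.2
  have I2 : NmA π C0 τ κ0 fun _ D => ∀ ω, (D.P 1).p ω ≠ 0 → ∀ a : ℝ, a ≤ a1 →
      |(D.raw π r0.q.ds ω).Te - (D.raw π r0.q.ds ω).T| ≤ D.s ^ a := by
    refine nm_gk_A_of fun _ _ => ?_
    exact nm_gf_time π hπ C0 τ κ0 r0.q hfam a1 ha1
  have I3 : NmA π C0 τ κ0 fun e D => max (max nmK1 (K0 * 15)) (max K0 ((24 * (B0 + 1) ^ 2 + 3) ^ 5)) ≤ (D.s ^ h) ^ (-e) ∧
      (4 * B0 + 3) ^ 3 + 1 ≤ (D.s ^ h) ^ (-(RX - 3 * r0.Rm)) ∧ 100 ≤ (D.s ^ h) ^ (-r0.Rm) := by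
    refine nm_gk_A_of fun e he => ?_
    obtain ⟨t1, ht1, -, g1⟩ := nm_gk_small (max (max nmK1 (K0 * 15)) (max K0 ((24 * (B0 + 1) ^ 2 + 3) ^ 5))) h e hh he
    obtain ⟨t2, ht2, -, g2⟩ := nm_gk_small ((4 * B0 + 3) ^ 3 + 1) h (RX - 3 * r0.Rm) hh (by linarith)
    obtain ⟨t3, ht3, -, g3⟩ := nm_gk_small 100 h r0.Rm hh hRm0
    refine ⟨min t1 (min t2 t3), lt_min ht1 (lt_min ht2 ht3), fun D hD => ?_⟩
    have hs := hD.ok.core.hs
    have hsm := hD.sm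
    exact ⟨g1 _ hs.1 (hsm.trans (min_le_left _ _)), g2 _ hs.1 (hsm.trans ((min_le_right _ _).trans (min_le_left _ _))),
      g3 _ hs.1 (hsm.trans ((min_le_right _ _).trans (min_le_right _ _)))⟩
  refine nm_gk_A_mono (nm_gk_A_and I1 (nm_gk_A_and I2 I3)) ?_
  rintro e D he hs ⟨J1, J2, J3, J4, J5⟩ dsp
  have hδ0 : 0 < D.s ^ h := Real.rpow_pos_of_pos hs.1 _
  have key := nm_grd_of D π hπ { r0 with a := x0, v := y0, h := h } A B M na nv K Kf RQ RX Λ K0 e0 ((D.s ^ h) ^ (-e)) hs hh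
    (show (3 : ℝ) ≤ r0.B by rw [hB]; exact hB0) hK0 hK hRQ hBk hRm hA hsl
    (fun i hi k hk => nm_gk_ok_congr (r := { r0 with a := x0 + i * (A * h), v := y0 + k * (B * h) }) rfl rfl rfl rfl (hpatch _ _ (hia i hi).1 (hia i hi).2 (hkv k hk).1 (hkv k hk).2))
    (fun i hi k hk => nm_gk_rep_congr (r := { r0 with a := x0 + i * (A * h), v := y0 + k * (B * h) }) rfl rfl rfl rfl (J1 (i, k) (Finset.mem_product.2
      ⟨Finset.mem_range.2 (Nat.lt_succ_iff.2 hi), Finset.mem_range.2 (Nat.lt_succ_iff.2 hk)⟩)))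
    (fun i hi ω hω => J2 ω hω _ (hia i hi).2)
    (hRh.trans (min_le_left _ _))
    (fun hl hc i hi k hk => (hRh.trans (min_le_right _ _)).trans
      (hclip hl hc _ _ (hia i hi).1 (hia i hi).2 (hkv k hk).1 (hkv k hk).2))
    (((le_max_left _ _).trans (le_max_left _ _)).trans J3) (((le_max_right _ _).trans (le_max_left _ _)).trans J3)
    (((le_max_left _ _).trans (le_max_right _ _)).trans J3)
    (by
      show (24 * (r0.B + 1) ^ 2 + 3) ^ 5 ≤ _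
      rw [hB]
      exact ((le_max_right _ _).trans (le_max_right _ _)).trans J3)
    (by
      show (4 * r0.B + 3) ^ 3 + 1 ≤ _
      rw [hB]
      exact J4)
    (by
      show 100 * (D.s ^ h) ^ r0.Rm ≤ 1
      rw [Real.rpow_neg hδ0.le] at J5
      have hp : 0 < (D.s ^ h) ^ r0.Rm := Real.rpow_pos_of_pos hδ0 _
      have := mul_le_mul_of_nonneg_right J5 hp.le
      rwa [inv_mul_cancel₀ hp.ne'] at this)
    dsp
  have hB' : r0.B + 1 = B0 + 1 := by rw [hB]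
  rw [← hB']
  exact key

end

end Claimed.Agent.R256
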