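import Claimed.Agent.R256.Nm.Contract
import Claimed.Agent.R256.Nm.Mem.Uf

/-!
# Row 256 (S0496), unit NM, block GRD (helper285), file 1: THE ENTROPIES OF THE CHILD AND WIDTH NAMES ARE THE INCREMENTS OF `𝓗`      (prefix `nm_gd_`)

`nm_gd_mean` = `nm_gr_mean` of `Nm/Grid.lean`, from `nm_rep` (X7a), `nm_tan_mean` (Y1), `nm_me_uf`.   `nm_gd_ev` : an ultralimit profile is attained up to `σ` for `uf`-most `n`.
-/

set_option autoImplicit false

namespace Claimed.Agent.R256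

open Claimed.Agent.R255
open Claimed.Agent.R255.FLaw (pair)
open Filter Topology
open Classical

noncomputable section

variable {π : SfPar} {C0 : ℝ} {κ : ℝ → ℝ} (S : NmSeq π C0 κ)

/-- a bounded profile is attained up to `σ` for `uf`-most `n` -/
theorem nm_gd_ev {α β : ℕ → Type} (X : S.Obs α) (Y : S.Obs β)
    (hb : UBdd fun n => ((S.D n).P 1).entC (X n) (Y n) / (S.D n).lgs) (σ : ℝ) (hσ : 0 < σ) :
    ∀ᶠ n in uf, |((S.D n).P 1).entC (X n) (Y n) / (S.D n).lgs - S.HC X Y| ≤ σ := by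
  have h := ulim_tendsto _ hb
  have h2 := (Metric.tendsto_nhds.1 h) σ hσ
  filter_upwards [h2] with n hn
  rw [Real.dist_eq] at hn
  exact hn.le

/-- the conditional entropy of a name given `C_*` is bounded along the sequence -/
theorem nm_gd_ubdd (hπ : π.Valid) (K0 e : ℝ) (r : NmRt) (hq : r.q.Fam π) (a' v' : ℝ) (h1 : ∀ᶠ n in uf, NmRep (S.D n) π r K0 e) :
    UBdd fun n => ((S.D n).P 1).entC ((S.D n).nm π r.q a' v') ((S.D n).cs π r) / (S.D n).lgs := by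
  have hqo := nm_fam_ok π hπ r.q hq
  refine UBdd.of_le 0 (|2 * Real.log nmK0 + Real.log K0| + r.q.Cr π * (|a' - r.a| + |v' - r.v|)) ?_
  filter_upwards [h1, nm_me_lgs_top S 1] with n hn hl
  obtain ⟨h0, hs1⟩ := nm_me_s S n
  have hpos := nm_me_lgs_pos S n
  refine ⟨div_nonneg (ent_entC_nonneg _ _ _) hpos.le, ?_⟩
  rw [div_le_iff₀ hpos]
  have t1 := nm_aux_entC_tri ((S.D n).P 1) ((S.D n).nm π r.q a' v') ((S.D n).nm π r.q r.a r.v) ((S.D n).cs π r)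
  have t2 := nm_entC_cmp (S.D n) π hqo h0 hs1 r.a r.v a' v'
  have t3 := ent_entC_le_log_nval _ _ _ hn.rep1
  have t4 : 2 * Real.log nmK0 + Real.log K0 ≤ |2 * Real.log nmK0 + Real.log K0| * (S.D n).lgs := by
    calc 2 * Real.log nmK0 + Real.log K0 ≤ |2 * Real.log nmK0 + Real.log K0| := le_abs_self _
      _ = |2 * Real.log nmK0 + Real.log K0| * 1 := (mul_one _).symm
      _ ≤ _ := mul_le_mul_of_nonneg_left hl (abs_nonneg _)
  rw [add_mul]
  linarith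

/-- division by the gap -/
theorem nm_gd_div {x y h L σ : ℝ} (hh : 0 < h) (hL : 0 < L) (H : |x / L - y| ≤ σ * h) : |x / (h * L) - y / h| ≤ σ := by
  have e : x / (h * L) - y / h = (x / L - y) / h := by
    field_simp
  rw [e, abs_div, abs_of_pos hh, div_le_iff₀ hh]
  exact H

/-- **the entropies of `lay_exit_mean` are the increments of `𝓗`**, in units of `log (1/δ) = h log (1/s)`, at one root -/
theorem nm_gd_mean (hπ : π.Valid) (hX : S.HasX) : ∃ Λ : ℝ, ∀ r : NmRt, r.Ok π Λ → 0 < r.h →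
    ∀ l : ℝ, 0 < l → r.a + l * r.h ≤ r.q.ds.De → ∀ σ : ℝ, 0 < σ → ∀ᶠ n in uf,
      |((S.D n).P 1).entC ((S.D n).nm π r.q (r.a + l * r.h) r.v) ((S.D n).cs π r) / (r.h * (S.D n).lgs)
          - (S.H r.q (r.a + l * r.h) r.v - S.H r.q r.a r.v) / r.h| ≤ σ ∧
      |((S.D n).P 1).entC ((S.D n).nm π r.q r.a (r.v + l * r.h)) ((S.D n).cs π r) / (r.h * (S.D n).lgs)
          - (S.H r.q r.a (r.v + l * r.h) - S.H r.q r.a r.v) / r.h| ≤ σ := by
  obtain ⟨Λ, K0, hrep⟩ := nm_rep π hπ C0 1 (κ 1)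
  refine ⟨Λ, fun r hr hh l hl _ σ hσ => ?_⟩
  obtain ⟨e, -, hA⟩ := hrep r hr
  have h1 : ∀ᶠ n in uf, NmRep (S.D n) π r K0 e := nm_me_uf S hX 1 one_pos _ hA 1 one_pos
  obtain ⟨m1, m2⟩ := nm_tan_mean S hπ K0 e r hr.q l (mul_pos hl hh).le h1
  have b1 := nm_gd_ubdd S hπ K0 e r hr.q (r.a + l * r.h) r.v h1
  have b2 := nm_gd_ubdd S hπ K0 e r hr.q r.a (r.v + l * r.h) h1
  have e1 := nm_gd_ev S (S.nm r.q (r.a + l * r.h) r.v) (fun n => (S.D n).cs π r) b1 (σ * r.h) (mul_pos hσ hh)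
  have e2 := nm_gd_ev S (S.nm r.q r.a (r.v + l * r.h)) (fun n => (S.D n).cs π r) b2 (σ * r.h) (mul_pos hσ hh)
  rw [m1] at e1
  rw [m2] at e2
  filter_upwards [e1, e2] with n a1 a2
  exact ⟨nm_gd_div hh (nm_me_lgs_pos S n) a1, nm_gd_div hh (nm_me_lgs_pos S n) a2⟩

end

end Claimed.Agent.R256
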