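import Claimed.Agent.R256.Nm.Base
import Claimed.Agent.R256.Nm.Pred.Doc
import Claimed.Agent.R256.Soft.Mono
import Claimed.Agent.R255.Cl.Tools.Cells

/-!
# Row 256 (S0496), unit NM, block GRD-IN (`nm_gr_in` of `Nm/Grid.lean`), file 1: KIT      (architect helper190; prefix `nm_gk_`)

PAPER-FREE.
* A. calculus of lists `FLaw.NVal` : `nm_gk_mono`, `nm_gk_refine`, `nm_gk_map`, `nm_gk_comp` (chain rule), `nm_gk_pair`.
* B. lists of cells from TWO-POINT closeness: `nm_gk_tvec` (vectors of `tcell δ (t j)`, any real depths), `nm_gk_ncell` (one `nmCell s b`), `nm_gk_tclose`.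
* C. smallness: `nm_gk_small` (`C ≤ (s^h)^(-e)` for small `s`), `nm_gk_pow` (`s^x ≤ (s^h)^y` if `y h ≤ x`).
* D. monotonicity in the tolerance: `nm_gk_aff_mono`, `nm_gk_fine_mono`, `nm_gk_x_mono`;  TYPE A statements: `nm_gk_A_mono`, `nm_gk_A_and`, `nm_gk_A_fin` (finite conjunctions), `nm_gk_A_of`.
* E. roots: `nm_gk_ok_mono` (`NmRt.Ok` is antitone in `Λ`), `nm_gk_rpr`, `nm_gk_cst`, `nm_gk_fst` (the representative of the side of a charged row).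
-/

set_option autoImplicit false

namespace Claimed.Agent.R256

open Claimed.Agent.R255
open Claimed.Agent.R255.FLaw (pair)
open Classical

noncomputable section

/-! ## A. lists -/

section lists

variable {Ω : Type} [Fintype Ω] (P : FLaw Ω) {α β γ : Type}

theorem nm_gk_mono {B : Ω → β} {A : Ω → α} {N N' : ℝ} (h : P.NVal (fun _ => True) B A N) (hN : N ≤ N') :
    P.NVal (fun _ => True) B A N' := by
  intro ω₀
  obtain ⟨S, hS, hm⟩ := h ω₀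
  exact ⟨S, hS.trans hN, hm⟩

/-- refining the conditioning -/
theorem nm_gk_refine {B : Ω → β} {A : Ω → α} {A' : Ω → γ} {N : ℝ} (h : P.NVal (fun _ => True) B A N)
    (hg : ∀ ω ω', A' ω = A' ω' → A ω = A ω') : P.NVal (fun _ => True) B A' N := by
  intro ω₀
  obtain ⟨S, hS, hm⟩ := h ω₀
  exact ⟨S, hS, fun ω hp hE hA => hm ω hp hE (hg _ _ hA)⟩

/-- a function of a listed observation is listed (equality only on the support) -/
theorem nm_gk_map {B : Ω → β} {B' : Ω → γ} {A : Ω → α} {N : ℝ} (h : P.NVal (fun _ => True) B A N) (f : β → γ)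
    (hf : ∀ ω, P.p ω ≠ 0 → B' ω = f (B ω)) : P.NVal (fun _ => True) B' A N := by
  intro ω₀
  obtain ⟨S, hS, hm⟩ := h ω₀
  refine ⟨S.image f, ?_, fun ω hp hE hA => ?_⟩
  · exact le_trans (by exact_mod_cast Finset.card_image_le) hS
  · rw [hf ω hp]
    exact Finset.mem_image_of_mem f (hm ω hp hE hA)

/-- chain rule: first list `C`, then `B` over `(A, C)` -/
theorem nm_gk_comp {B : Ω → β} {C : Ω → γ} {A : Ω → α} {N M : ℝ} (hM : 0 ≤ M) (h1 : P.NVal (fun _ => True) C A N)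
    (h2 : P.NVal (fun _ => True) B (pair A C) M) : P.NVal (fun _ => True) B A (N * M) := by
  intro ω₀
  obtain ⟨S₁, hS₁, hm₁⟩ := h1 ω₀
  have hex : ∀ c : γ, ∃ S : Finset β, (S.card : ℝ) ≤ M ∧ ∀ ω, P.p ω ≠ 0 → A ω = A ω₀ → C ω = c → B ω ∈ S := by
    intro c
    by_cases hc : ∃ ω₁, A ω₁ = A ω₀ ∧ C ω₁ = c
    · obtain ⟨ω₁, hA₁, hC₁⟩ := hc
      obtain ⟨S, hS, hm⟩ := h2 ω₁
      refine ⟨S, hS, fun ω hp hA hC => hm ω hp trivial ?_⟩
      show (A ω, C ω) = (A ω₁, C ω₁)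
      rw [hA, hC, hA₁, hC₁]
    · exact ⟨∅, by simpa using hM, fun ω _ hA hC => absurd ⟨ω, hA, hC⟩ hc⟩
  choose S₂ hS₂ hm₂ using hex
  refine ⟨S₁.biUnion S₂, ?_, fun ω hp _ hA => ?_⟩
  · calc ((S₁.biUnion S₂).card : ℝ) ≤ ((∑ c ∈ S₁, (S₂ c).card : ℕ) : ℝ) := by exact_mod_cast Finset.card_biUnion_le
      _ = ∑ c ∈ S₁, ((S₂ c).card : ℝ) := by push_cast; rfl
      _ ≤ ∑ _c ∈ S₁, M := Finset.sum_le_sum fun c _ => hS₂ c
      _ = S₁.card * M := by rw [Finset.sum_const, nsmul_eq_mul]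
      _ ≤ N * M := mul_le_mul_of_nonneg_right hS₁ hM
  · exact Finset.mem_biUnion.2 ⟨C ω, hm₁ ω hp trivial hA, hm₂ (C ω) ω hp hA rfl⟩

theorem nm_gk_pair {B : Ω → β} {C : Ω → γ} {A : Ω → α} {N M : ℝ} (hM : 0 ≤ M) (h1 : P.NVal (fun _ => True) B A N)
    (h2 : P.NVal (fun _ => True) C A M) : P.NVal (fun _ => True) (pair B C) A (N * M) := by
  intro ω₀
  obtain ⟨S₁, hS₁, hm₁⟩ := h1 ω₀
  obtain ⟨S₂, hS₂, hm₂⟩ := h2 ω₀
  refine ⟨S₁ ×ˢ S₂, ?_, fun ω hp hE hA => Finset.mem_product.2 ⟨hm₁ ω hp hE hA, hm₂ ω hp hE hA⟩⟩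
  rw [Finset.card_product]
  push_cast
  exact mul_le_mul hS₁ hS₂ (Nat.cast_nonneg _) ((Nat.cast_nonneg _).trans hS₁)

/-! ## B. cells -/

/-- two numbers in the same cell of depth `t ≥ 0` -/
theorem nm_gk_tclose {δ : ℝ} (h0 : 0 < δ) {t x y : ℝ} (h : tcell δ t x = tcell δ t y) : |x - y| ≤ δ ^ t := by
  have hr : trep δ t x = trep δ t y := by unfold trep; rw [h]
  have a1 := tl_trep_le δ t x
  have a2 := tl_sub_trep_le h0 t x
  have a3 := tl_trep_le δ t y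
  have a4 := tl_sub_trep_le h0 t y
  rw [abs_le]
  constructor <;> linarith

/-- `|trep - x| ≤ min 1 (δ^t)`-type bound used for stored marks -/
theorem nm_gk_trep {δ : ℝ} (h0 : 0 < δ) (t x : ℝ) : |trep δ t x - x| ≤ δ ^ t := by
  rw [abs_sub_comm]
  exact tl_abs_sub_trep h0 t x

/-- the mesh against `min 1 (δ^t)` -/
theorem nm_gk_aux_mesh {δ : ℝ} (h0 : 0 < δ) (h1 : δ < 1) (t : ℝ) : min 1 (δ ^ t) * 2 ^ (tlev δ t) ≤ 2 := by
  rcases le_total 0 t with ht | ht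
  · exact (mul_le_mul_of_nonneg_right (min_le_right _ _) (by positivity)).trans (tl_cellw_lt h0 h1 ht).le
  · have hl : 0 ≤ Real.logb 2 (1 / δ) := Real.logb_nonneg (by norm_num) (by rw [one_div]; exact (one_le_inv₀ h0).2 h1.le)
    have e : tlev δ t = 0 := by
      unfold tlev
      exact Nat.ceil_eq_zero.2 (mul_nonpos_of_nonpos_of_nonneg ht hl)
    rw [e, pow_zero, mul_one]
    exact (min_le_left _ _).trans (by norm_num)

/-- integers in a window -/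
theorem nm_gk_aux_win (a R : ℝ) (hR : 0 ≤ R) : ((Finset.Icc ⌊a - 2 * R⌋ ⌊a + 2 * R⌋).card : ℝ) ≤ 4 * R + 3 := by
  rw [Int.card_Icc]
  have hle : ⌊a - 2 * R⌋ ≤ ⌊a + 2 * R⌋ := Int.floor_le_floor (by linarith)
  have e : (((⌊a + 2 * R⌋ + 1 - ⌊a - 2 * R⌋).toNat : ℕ) : ℝ) = ((⌊a + 2 * R⌋ + 1 - ⌊a - 2 * R⌋ : ℤ) : ℝ) := by
    exact_mod_cast congrArg (fun z : ℤ => (z : ℝ)) (Int.toNat_of_nonneg (by omega))
  rw [e]
  push_cast
  have h1 := Int.floor_le (a + 2 * R)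
  have h2 := Int.lt_floor_add_one (a - 2 * R)
  linarith

/-- **vectors of cells**: if two charged points with the same value of `A` have `R min(1, δ^(t j))`-close coordinates, then every function of the vector of the cells `tcell δ (t j) (y j)` is listed by `A`.
(`2^(tlev δ t) ≤ 2 / min 1 (δ^t)`: `tl_cellw_lt` if `t ≥ 0`, `tlev = 0` if `t ≤ 0`; base point = any charged point of the fibre; `Fintype.piFinset` of intervals.) -/
theorem nm_gk_tvec (A : Ω → α) (m : ℕ) (y : Ω → Fin m → ℝ) (δ R : ℝ) (t : Fin m → ℝ) (h0 : 0 < δ) (h1 : δ < 1) (hR : 0 ≤ R)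
    (Φ : (Fin m → ℤ) → β) (B : Ω → β) (hB : ∀ ω, P.p ω ≠ 0 → B ω = Φ (fun j => tcell δ (t j) (y ω j)))
    (h : ∀ ω ω', P.p ω ≠ 0 → P.p ω' ≠ 0 → A ω = A ω' → ∀ j, |y ω j - y ω' j| ≤ R * min 1 (δ ^ t j)) :
    P.NVal (fun _ => True) B A ((4 * R + 3) ^ m) := by
  intro ω₀
  by_cases hex : ∃ ω₁, P.p ω₁ ≠ 0 ∧ A ω₁ = A ω₀
  · obtain ⟨ω₁, hp₁, hA₁⟩ := hex
    refine ⟨(Fintype.piFinset fun j : Fin m => Finset.Icc ⌊y ω₁ j * 2 ^ (tlev δ (t j)) - 2 * R⌋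
      ⌊y ω₁ j * 2 ^ (tlev δ (t j)) + 2 * R⌋).image Φ, ?_, fun ω hp _ hA => ?_⟩
    · refine le_trans (Nat.cast_le.2 Finset.card_image_le) ?_
      rw [Fintype.card_piFinset]
      push_cast
      calc ∏ j : Fin m, ((Finset.Icc ⌊y ω₁ j * 2 ^ (tlev δ (t j)) - 2 * R⌋ ⌊y ω₁ j * 2 ^ (tlev δ (t j)) + 2 * R⌋).card : ℝ)
          ≤ ∏ _j : Fin m, (4 * R + 3) :=
            Finset.prod_le_prod (fun _ _ => Nat.cast_nonneg _) (fun j _ => nm_gk_aux_win _ R hR)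
        _ = (4 * R + 3) ^ m := by rw [Finset.prod_const, Finset.card_univ, Fintype.card_fin]
    · rw [hB ω hp]
      refine Finset.mem_image_of_mem Φ (Fintype.mem_piFinset.2 fun j => ?_)
      have hW : (0 : ℝ) < 2 ^ (tlev δ (t j)) := by positivity
      have hd := h ω ω₁ hp hp₁ (hA.trans hA₁.symm) j
      have h2 : |y ω j * 2 ^ (tlev δ (t j)) - y ω₁ j * 2 ^ (tlev δ (t j))| ≤ 2 * R := by
        rw [← sub_mul, abs_mul, abs_of_pos hW]
        calc |y ω j - y ω₁ j| * 2 ^ (tlev δ (t j)) ≤ R * min 1 (δ ^ t j) * 2 ^ (tlev δ (t j)) :=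
              mul_le_mul_of_nonneg_right hd hW.le
          _ = R * (min 1 (δ ^ t j) * 2 ^ (tlev δ (t j))) := by ring
          _ ≤ R * 2 := mul_le_mul_of_nonneg_left (nm_gk_aux_mesh h0 h1 (t j)) hR
          _ = 2 * R := by ring
      obtain ⟨h3, h4⟩ := abs_le.1 h2
      rw [Finset.mem_Icc]
      unfold tcell
      exact ⟨Int.floor_le_floor (by linarith), Int.floor_le_floor (by linarith)⟩
  · refine ⟨∅, ?_, fun ω hp _ hA => absurd ⟨ω, hp, hA⟩ hex⟩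
    rw [Finset.card_empty, Nat.cast_zero]
    positivity

/-- **one absolute cell** (`nm_cell_close`, `nm_count_one`) -/
theorem nm_gk_ncell (A : Ω → α) (y : Ω → ℝ) (s b b' R : ℝ) (h0 : 0 < s) (h1 : s < 1) (hR : 0 ≤ R)
    (h : ∀ ω ω', P.p ω ≠ 0 → P.p ω' ≠ 0 → A ω = A ω' → |y ω - y ω'| ≤ R * s ^ b') :
    P.NVal (fun _ => True) (fun ω => nmCell s b (y ω)) A (2 * R * s ^ (-(b - b')) + 2) := by
  intro ω₀
  have hK : 0 ≤ 2 * R * s ^ (-(b - b')) + 1 := by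
    have := Real.rpow_pos_of_pos h0 (-(b - b'))
    positivity
  obtain ⟨hfin, hcard⟩ := nm_count_one (2 * R * s ^ (-(b - b')) + 1) hK
    {z : ℤ | ∃ ω, P.p ω ≠ 0 ∧ A ω = A ω₀ ∧ nmCell s b (y ω) = z} (by
      rintro x ⟨ω, hp, hA, rfl⟩ x' ⟨ω', hp', hA', rfl⟩
      exact nm_cell_close h0 h1 b' b (h ω ω' hp hp' (hA.trans hA'.symm)))
  refine ⟨hfin.toFinset, ?_, fun ω hp _ hA => ?_⟩
  · rw [← Set.ncard_eq_toFinset_card _ hfin]
    linarith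
  · rw [Set.Finite.mem_toFinset]
    exact ⟨ω, hp, hA, rfl⟩

end lists

/-! ## C. smallness -/

theorem nm_gk_small (C h e : ℝ) (hh : 0 < h) (he : 0 < e) : ∃ t0 : ℝ, 0 < t0 ∧ t0 < 1 ∧ ∀ s : ℝ, 0 < s → s ≤ t0 → C ≤ (s ^ h) ^ (-e) := by
  obtain ⟨A, hA⟩ : ∃ A : ℝ, A = max C 1 := ⟨_, rfl⟩
  have hA1 : 1 ≤ A := by rw [hA]; exact le_max_right _ _
  have hA0 : 0 < A := by linarith
  have hhe : 0 < h * e := mul_pos hh he
  have hx0 : 0 < A ^ (-(1 / (h * e))) := Real.rpow_pos_of_pos hA0 _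
  refine ⟨min (1 / 2) (A ^ (-(1 / (h * e)))), lt_min (by norm_num) hx0, lt_of_le_of_lt (min_le_left _ _) (by norm_num), ?_⟩
  intro s hs hst
  rw [← Real.rpow_mul hs.le]
  have h1 : s ≤ A ^ (-(1 / (h * e))) := hst.trans (min_le_right _ _)
  have h2 : (A ^ (-(1 / (h * e)))) ^ (h * -e) ≤ s ^ (h * -e) :=
    Real.rpow_le_rpow_of_nonpos hs h1 (by nlinarith)
  have h3 : (A ^ (-(1 / (h * e)))) ^ (h * -e) = A := by
    rw [← Real.rpow_mul hA0.le]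
    have : -(1 / (h * e)) * (h * -e) = 1 := by field_simp
    rw [this, Real.rpow_one]
  calc C ≤ A := by rw [hA]; exact le_max_left _ _
    _ ≤ s ^ (h * -e) := by rw [← h3]; exact h2

theorem nm_gk_pow {s h x y : ℝ} (h0 : 0 < s) (h1 : s < 1) (hxy : y * h ≤ x) : s ^ x ≤ (s ^ h) ^ y := by
  rw [← Real.rpow_mul h0.le]
  exact Real.rpow_le_rpow_of_exponent_ge h0 h1.le (by linarith [mul_comm h y])

/-! ## D. tolerance -/

theorem nm_gk_aff_mono (D : SfDoc) (π : SfPar) (τ κ0 t t' : ℝ) (hs : 0 < D.s ∧ D.s < 1) (ht : 0 < t) (htt : t ≤ t') (h : D.Aff π τ κ0 t) :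
    D.Aff π τ κ0 t' := by
  have mo : ∀ {x y : ℝ}, x ≤ y → D.s ^ y ≤ D.s ^ x := fun hxy => sf_mono_aux_le hs hxy
  have ht' : 0 < t' := ht.trans_le htt
  have hinv : 1 / t' ≤ 1 / t := one_div_le_one_div_of_le ht htt
  refine ⟨fun i hi => ?_, fun i hi => ?_, fun i hi j hj hij ρ ρ' hc => ?_, fun i hi ρ => ?_, fun h1 h2 h3 i hi ρ => ?_,
    fun h1 h2 i hi ρ => ?_, fun h1 => ⟨fun i hi j hj hij ρ ρ' hc => ?_, fun ρ => ?_⟩, ?_,
    fun hh => sf_spg_mono D π τ τ κ0 κ0 t t' hs ht htt le_rfl le_rfl (h.spg hh)⟩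
  · obtain ⟨a, b⟩ := h.hr i hi
    exact ⟨(mo (by linarith)).trans a, b.trans (mo (by linarith))⟩
  · obtain ⟨a, b⟩ := h.hf i hi
    exact ⟨(mo (by linarith)).trans a, b.trans (mo (by linarith))⟩
  · obtain ⟨a, b, c⟩ := h.cmpA i hi j hj hij ρ ρ' hc
    exact ⟨a.trans (mo (by linarith)), b.trans (mo (by linarith)), c.trans (mo (by linarith))⟩
  · exact (h.cmpB i hi ρ).trans (mo (by linarith))
  · exact (h.eqK h1 h2 h3 i hi ρ).trans (mo (by linarith))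
  · exact (h.stK h1 h2 i hi ρ).trans (mo (by linarith))
  · exact ((h.linP h1).1 i hi j hj hij ρ ρ' hc).trans (mo (by linarith))
  · exact ((h.linP h1).2 ρ).trans (mo (by linarith))
  · intro i hi j hj hij htk ι _ Sb Ub sg a1 a2 a3 a4 a5 a6 a7
    exact h.mincost i hi j hj hij (htt.trans htk) ι Sb Ub sg a1 a2 a3 a4
      (fun b => (a5 b).trans (mo (by linarith))) a6 a7

theorem nm_gk_fine_mono {D : SfDoc} {π : SfPar} {C0 τ κ0 t t' : ℝ} (htt : t ≤ t') (h : D.Fine π C0 τ κ0 t) : D.Fine π C0 τ κ0 t' := by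
  have hs := h.ok.core.hs
  refine ⟨h.pos.trans_le htt, ⟨sf_mono_aux_core D π C0 t t' h.pos htt h.ok.core, nm_gk_aff_mono D π τ κ0 t t' hs h.pos htt h.ok.aff⟩,
    h.sm.trans htt, fun a h0 h1 => ?_⟩
  obtain ⟨i, hi, hia⟩ := h.mesh a h0 h1
  exact ⟨i, hi, hia.trans htt⟩

theorem nm_gk_x_mono {π : SfPar} {D : SfDoc} {t t' : ℝ} (hs : 0 < D.s ∧ D.s < 1) (htt : t ≤ t') (h : nmX π D t) : nmX π D t' := by
  have mo : D.s ^ (-t) ≤ D.s ^ (-t') := sf_mono_aux_le hs (by linarith)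
  obtain ⟨h1, h2⟩ := h
  refine ⟨?_, ?_⟩
  · intro i hi j hj h0 hij R c hc
    refine (h1 i hi j hj h0 hij R c hc).trans ?_
    exact mul_le_mul_of_nonneg_right mo (Real.rpow_nonneg hs.1.le _)
  · intro hh i hi j hj h0 hij R Z c gs hc hg
    refine (h2 hh i hi j hj h0 hij R Z c gs hc hg).trans ?_
    exact mul_le_mul_of_nonneg_right mo (Real.rpow_nonneg hs.1.le _)

section typeA

variable {π : SfPar} {C0 τ κ0 : ℝ}

theorem nm_gk_A_mono {Φ Ψ : ℝ → SfDoc → Prop} (h : NmA π C0 τ κ0 Φ) (hi : ∀ acc D, 0 < acc → 0 < D.s ∧ D.s < 1 → Φ acc D → Ψ acc D) :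
    NmA π C0 τ κ0 Ψ := by
  intro acc hacc
  obtain ⟨t0, ht0, h1⟩ := h acc hacc
  exact ⟨t0, ht0, fun D hD hX => hi acc D hacc hD.ok.core.hs (h1 D hD hX)⟩

theorem nm_gk_A_and {Φ Ψ : ℝ → SfDoc → Prop} (h1 : NmA π C0 τ κ0 Φ) (h2 : NmA π C0 τ κ0 Ψ) :
    NmA π C0 τ κ0 fun acc D => Φ acc D ∧ Ψ acc D := by
  intro acc hacc
  obtain ⟨t1, ht1, g1⟩ := h1 acc hacc
  obtain ⟨t2, ht2, g2⟩ := h2 acc hacc
  refine ⟨min t1 t2, lt_min ht1 ht2, fun D hD hX => ?_⟩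
  have hs := hD.ok.core.hs
  exact ⟨g1 D (nm_gk_fine_mono (min_le_left _ _) hD) (nm_gk_x_mono hs (min_le_left _ _) hX),
    g2 D (nm_gk_fine_mono (min_le_right _ _) hD) (nm_gk_x_mono hs (min_le_right _ _) hX)⟩

/-- finite conjunctions -/
theorem nm_gk_A_fin {ι : Type} (I : Finset ι) (Φ : ι → ℝ → SfDoc → Prop) (h : ∀ i ∈ I, NmA π C0 τ κ0 (Φ i)) :
    NmA π C0 τ κ0 fun acc D => ∀ i ∈ I, Φ i acc D := by
  induction I using Finset.induction_on with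
  | empty =>
    intro acc _
    exact ⟨1, one_pos, fun D _ _ i hi => absurd hi (Finset.notMem_empty i)⟩
  | insert a s ha ih =>
    have h1 : NmA π C0 τ κ0 (Φ a) := h a (Finset.mem_insert_self a s)
    have h2 : NmA π C0 τ κ0 fun acc D => ∀ i ∈ s, Φ i acc D := ih fun i hi => h i (Finset.mem_insert_of_mem hi)
    refine nm_gk_A_mono (nm_gk_A_and h1 h2) ?_
    intro acc D _ _ hh i hi
    rcases Finset.mem_insert.1 hi with rfl | hi
    · exact hh.1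
    · exact hh.2 i hi

/-- a statement which only needs a small tolerance -/
theorem nm_gk_A_of {Φ : ℝ → SfDoc → Prop} (h : ∀ acc : ℝ, 0 < acc → ∃ t0 : ℝ, 0 < t0 ∧ ∀ D : SfDoc, D.Fine π C0 τ κ0 t0 → Φ acc D) :
    NmA π C0 τ κ0 Φ := by
  intro acc hacc
  obtain ⟨t0, ht0, g⟩ := h acc hacc
  exact ⟨t0, ht0, fun D hD _ => g D hD⟩

end typeA

/-! ## E. roots and representatives -/

theorem nm_gk_ok_mono {r : NmRt} {π : SfPar} {Λ Λ' : ℝ} (hπ : π.Valid) (hΛ : Λ ≤ Λ') (h : r.Ok π Λ') : r.Ok π Λ := by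
  exact NmRt.Ok.mono hπ h hΛ

/-- `NmRt.Ok` does not see `h`, `Rm`, `B` -/
theorem nm_gk_ok_congr {r r' : NmRt} {π : SfPar} {Λ : ℝ} (hq : r'.q = r.q) (hσ : r'.σ = r.σ) (ha : r'.a = r.a) (hv : r'.v = r.v)
    (h : r.Ok π Λ) : r'.Ok π Λ := by
  obtain ⟨q, σ, a, v, h0, Rm, B⟩ := r
  obtain ⟨q', σ', a', v', h0', Rm', B'⟩ := r'
  simp only at hq hσ ha hv
  subst hq hσ ha hv
  exact ⟨h.q, h.g0, h.ha, h.hv, h.rate, h.hyb, h.brq, h.brl, h.anc, h.cq, h.eq⟩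

/-- `NmRep` does not see `h`, `Rm`, `B` -/
theorem nm_gk_rep_congr {D : SfDoc} {π : SfPar} {r r' : NmRt} {K0 e : ℝ} (hq : r'.q = r.q) (hσ : r'.σ = r.σ) (ha : r'.a = r.a) (hv : r'.v = r.v)
    (h : NmRep D π r K0 e) : NmRep D π r' K0 e := by
  obtain ⟨q, σ, a, v, h0, Rm, B⟩ := r
  obtain ⟨q', σ', a', v', h0', Rm', B'⟩ := r'
  simp only at hq hσ ha hv
  subst hq hσ ha hv
  exact ⟨h.rep1, h.rep2, h.close⟩

/-- the representative of the side of a charged row: a charged row with the same side -/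
theorem nm_gk_rpr (D : SfDoc) (π : SfPar) (q : NmQ) (σ : NmSd) (a : ℝ) (ω : D.Row 1) (hω : (D.P 1).p ω ≠ 0) :
    ∃ ω' : D.Row 1, D.rpr π q σ a (D.side π q σ a ω) = some ω' ∧ (D.P 1).p ω' ≠ 0 ∧ D.side π q σ a ω' = D.side π q σ a ω := by
  have hex : ∃ ω', (D.P 1).p ω' ≠ 0 ∧ D.side π q σ a ω' = D.side π q σ a ω := ⟨ω, hω, rfl⟩
  refine ⟨hex.choose, ?_, hex.choose_spec.1, hex.choose_spec.2⟩
  unfold SfDoc.rpr
  rw [dif_pos hex]

theorem nm_gk_cst (D : SfDoc) (π : SfPar) (r : NmRt) (z : NmZv D.Idx) (ω' : D.Row 1) (h : D.rpr π r.q r.σ r.a z = some ω') :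
    D.cst π r z = D.nm π r.q r.a r.v ω' := by
  unfold SfDoc.cst
  rw [h]

theorem nm_gk_fst (D : SfDoc) (π : SfPar) (r : NmRt) (z : NmZv D.Idx) (ω' : D.Row 1) (h : D.rpr π r.q r.σ r.a z = some ω') :
    D.fst π r z = (D.raw π r.q.ds ω').phase D.s π r.q r.a r.v (!r.σ.lin) (D.nm π r.q r.a r.v ω') := by
  unfold SfDoc.fst
  rw [h]

/-- what two rows with the same side share -/
theorem nm_gk_side (D : SfDoc) (π : SfPar) (q : NmQ) (σ : NmSd) (a : ℝ) (ω ω' : D.Row 1) (h : D.side π q σ a ω' = D.side π q σ a ω) :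
    (D.raw π q.ds ω').kb = (D.raw π q.ds ω).kb ∧ nmCell D.s a (D.raw π q.ds ω').T = nmCell D.s a (D.raw π q.ds ω).T ∧
    (D.raw π q.ds ω').Rc D.s q a = (D.raw π q.ds ω).Rc D.s q a ∧ (D.raw π q.ds ω').kc D.s q a = (D.raw π q.ds ω).kc D.s q a ∧
    (σ.lin = true → nmCell D.s (π.b1 a) ((D.raw π q.ds ω').Lraw D.s q a) = nmCell D.s (π.b1 a) ((D.raw π q.ds ω).Lraw D.s q a)) := by
  unfold SfDoc.side at h
  simp only [Prod.mk.injEq] at h
  obtain ⟨-, ⟨h1, -, h2⟩, h3, h4, h5⟩ := h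
  refine ⟨h1, h2, h3, h4, fun hl => ?_⟩
  rw [if_pos hl, if_pos hl] at h5
  exact h5

end

end Claimed.Agent.R256
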