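import Claimed.Agent.R256.Nm.Grd.Kit

/-!
# Row 256 (S0496), unit NM, block GRD-IN, file 2: THE DISPLAY OF A CHILD NAME, ON ONE RAW DATUM      (architect helper190; prefix `nm_gd_`)

PAPER-FREE (04-canonical-names.tex l.957-1000 made explicit).   ONE raw datum `x : NmRaw`, a root `(a, v)`, a FRAME = any name `n` read at `(a, v)` (in the applications the root name `C_*` of the representative), the child name `c' = x.name s π q a' v`, `a ≤ a'`.
`f = x.phase s π q a v true n` = the actual normalised phase of `x` in the frame `n` (with its `P`-entry also on a linear branch),   `d = nmDsp s π q a v a' c' n : ItDsp` = the EXPLICIT decoder.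

Notation:  `t, R, k, L, xc, B0, Y0, N0, D0` the real numbers coded by `n` at `(a,v)` (`NmNm.tv`, ... of `Geo/Est.lean`);  `t', R', k', L', xc', B0', Y0', N0', D0'` those of `c'` at `(a', v)`;
`τ = t' - t`,  `dL = L' - L`,  `dR = R' - R - τ k`,  `dk = k' - k`,  `β0 = B0 + τ xc`,  `y0 = Y0 - τ xc²`;   `Sa = s^a`, `Sv = s^v`, `Sl = s^l`, `s^w = Sl Sv` (`nm_w_eq`).
EXACT IDENTITIES (`X = xc + Sv f.X`, `B_t = B0 + Sa Sv f.B`, ...; `B' = B_{t'}`, `θ' = τ / Sa`, `W' = f.B + θ' f.X`, `V' = f.Y + θ' f.X²`):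
 (I1) `B' - β0 = Sa Sv W'`
 (I2) `(Y_{t'} - 2 xc' B') + 2 (xc' - xc) B' - y0 = Sa Sv² V'`
 (I3) `Nres' - N0 + (dL xc + dR xc² + dk y0) = Sl Sv (f.N - 𝓛 f.X - 𝓡 f.X² - 𝔟 (V' - 2 f.X W'))`
 (I4) `Dres' - D0 - τ N0 + (dL β0 + dR (y0 + 2 xc β0) - dk β0²) = Sa Sl Sv (f.D + θ' f.N - 𝓛 W' - 𝓡 V' + 𝔟 W'²)`
 (I5) `Sl (f.P - 𝓛 - 2 𝓡 f.X + 2 𝔟 W') = Lraw' - L'`
where `Nres', Dres', Lraw'` are the numbers of `x` at `(a', v)` whose bins are the entries of `c'`.   The bins of `c'` replace `B'`, ..., `Dres'` with the errors `s^(a'+v)`, `s^(a'+2v)`, `s^(w')`, `s^(a'+w')` (`nm_rep_abs`).   NO boundedness of absolute quantities is used.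
-/

set_option autoImplicit false

namespace Claimed.Agent.R256

open Claimed.Agent.R255
open Classical

noncomputable section

/-- **the display of the child name `c'` (read at `(a', v)`) in the frame of the name `n` (read at `(a, v)`)** -/
def nmDsp (s : ℝ) (π : SfPar) (q : NmQ) (a v a' : ℝ) (c' n : NmNm) : ItDsp :=
  let τ : ℝ := c'.tv s a' - n.tv s a
  let dL : ℝ := c'.Lv s π q a' v - n.Lv s π q a v
  let dR : ℝ := c'.Rv s q a' - n.Rv s q a - τ * n.kv s q a
  let dk : ℝ := c'.kv s q a' - n.kv s q a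
  let xc : ℝ := n.Xv s v
  let β0 : ℝ := n.Bv s a v + τ * xc
  let y0 : ℝ := n.Yv s a v - τ * xc ^ 2
  { th := τ / s ^ a
    W := (c'.Bv s a' v - β0) / s ^ (a + v)
    V := (c'.Yv s a' v + 2 * (c'.Xv s v - xc) * c'.Bv s a' v - y0) / s ^ (a + 2 * v)
    L := (dL + 2 * dR * xc - 2 * dk * β0) / s ^ (q.l π a v)
    R := dR * s ^ (v - q.l π a v)
    b := dk * s ^ (a + v - q.l π a v)
    vel := (c'.Nv s π q a' v - n.Nv s π q a v + (dL * xc + dR * xc ^ 2 + dk * y0)) / s ^ (q.w π a v)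
    pos := (c'.Dv s π q a' v - n.Dv s π q a v - τ * n.Nv s π q a v + (dL * β0 + dR * (y0 + 2 * xc * β0) - dk * β0 ^ 2))
      / s ^ (a + q.w π a v) }

theorem nm_gd_eqns_cite : True := by
  have := @nmDsp.eq_1
  trivial

section geo

variable {s : ℝ} (h0 : 0 < s) (h1 : s < 1) (π : SfPar) (q : NmQ) (a v a' : ℝ) (x : NmRaw) (n : NmNm)
include h0 h1

/-- **base reads** (I1), (I2).      LEAF L-256-NM-GRD-DA -/
theorem nm_gd_base :
    |(nmDsp s π q a v a' (x.name s π q a' v) n).W - ((x.phase s π q a v true n).B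
        + (nmDsp s π q a v a' (x.name s π q a' v) n).th * (x.phase s π q a v true n).X)| ≤ s ^ (a' - a) ∧
    |(nmDsp s π q a v a' (x.name s π q a' v) n).V - ((x.phase s π q a v true n).Y
        + (nmDsp s π q a v a' (x.name s π q a' v) n).th * (x.phase s π q a v true n).X ^ 2)|
      ≤ (3 + 2 * |(x.phase s π q a v true n).X|) * s ^ (a' - a) := by
  have hSa : 0 < s ^ a := Real.rpow_pos_of_pos h0 _
  have hSv : 0 < s ^ v := Real.rpow_pos_of_pos h0 _
  have hSd : 0 < s ^ (a' - a) := Real.rpow_pos_of_pos h0 _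
  have e1 : s ^ (a + v) = s ^ a * s ^ v := Real.rpow_add h0 _ _
  have e2 : s ^ (a + 2 * v) = s ^ a * (s ^ v * s ^ v) := by
    rw [Real.rpow_add h0, two_mul, Real.rpow_add h0]
  have e3 : s ^ (a' + v) = s ^ (a' - a) * (s ^ a * s ^ v) := by
    rw [← Real.rpow_add h0, ← Real.rpow_add h0]; congr 1; ring
  have e4 : s ^ (a' + 2 * v) = s ^ (a' - a) * (s ^ a * (s ^ v * s ^ v)) := by
    rw [← Real.rpow_add h0, ← Real.rpow_add h0, ← Real.rpow_add h0]; congr 1; ring
  have b1 := nm_rep_abs h0 h1 (a' + v) (x.z.Bt (x.ta s a'))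
  have b2 := nm_rep_abs h0 h1 (a' + 2 * v) (x.z.Yt (x.ta s a') - 2 * nmRep s v x.z.X * x.z.Bt (x.ta s a'))
  have b3 := nm_rep_abs h0 h1 v x.z.X
  rw [e3] at b1
  rw [e4] at b2
  set Sa := s ^ a with hSa'
  set Sv := s ^ v with hSv'
  set Sd := s ^ (a' - a) with hSd'
  set Br := nmRep s (a' + v) (x.z.Bt (x.ta s a')) with hBr
  set Yr := nmRep s (a' + 2 * v) (x.z.Yt (x.ta s a') - 2 * nmRep s v x.z.X * x.z.Bt (x.ta s a')) with hYr
  set Xr := nmRep s v x.z.X with hXr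
  have k1 : (nmDsp s π q a v a' (x.name s π q a' v) n).W - ((x.phase s π q a v true n).B
        + (nmDsp s π q a v a' (x.name s π q a' v) n).th * (x.phase s π q a v true n).X)
      = -(x.z.Bt (x.ta s a') - Br) / (Sa * Sv) := by
    show ((Br - (n.Bv s a v + (x.ta s a' - n.tv s a) * n.Xv s v)) / s ^ (a + v)
      - ((x.z.Bt (n.tv s a) - n.Bv s a v) / s ^ (a + v) + (x.ta s a' - n.tv s a) / Sa * ((x.z.X - n.Xv s v) / Sv))) = _
    rw [e1]
    unfold SfRay.Bt
    field_simp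
    ring
  have kX : (x.phase s π q a v true n).X = (x.z.X - n.Xv s v) / Sv := rfl
  have k2 : (nmDsp s π q a v a' (x.name s π q a' v) n).V - ((x.phase s π q a v true n).Y
        + (nmDsp s π q a v a' (x.name s π q a' v) n).th * (x.phase s π q a v true n).X ^ 2)
      = (-(x.z.Yt (x.ta s a') - 2 * Xr * x.z.Bt (x.ta s a') - Yr)
          - 2 * (Xr - n.Xv s v) * (x.z.Bt (x.ta s a') - Br)) / (Sa * (Sv * Sv)) := by
    show ((Yr + 2 * (Xr - n.Xv s v) * Br - (n.Yv s a v - (x.ta s a' - n.tv s a) * n.Xv s v ^ 2)) / s ^ (a + 2 * v)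
      - ((x.z.Yt (n.tv s a) - 2 * n.Xv s v * x.z.Bt (n.tv s a) - n.Yv s a v) / s ^ (a + 2 * v)
        + (x.ta s a' - n.tv s a) / Sa * ((x.z.X - n.Xv s v) / Sv) ^ 2)) = _
    rw [e2]
    unfold SfRay.Bt SfRay.Yt
    field_simp
    ring
  constructor
  · rw [k1, abs_div, abs_neg, abs_of_pos (mul_pos hSa hSv), div_le_iff₀ (mul_pos hSa hSv)]
    exact b1
  · rw [k2, kX, abs_div, abs_of_pos (mul_pos hSa (mul_pos hSv hSv)), div_le_iff₀ (mul_pos hSa (mul_pos hSv hSv)),
      abs_div, abs_of_pos hSv]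
    have c1 : |Xr - n.Xv s v| ≤ Sv + |x.z.X - n.Xv s v| := by
      have : Xr - n.Xv s v = -(x.z.X - Xr) + (x.z.X - n.Xv s v) := by ring
      rw [this]
      refine (abs_add_le _ _).trans ?_
      rw [abs_neg]
      linarith
    have c2 : |(Xr - n.Xv s v) * (x.z.Bt (x.ta s a') - Br)| ≤ (Sv + |x.z.X - n.Xv s v|) * (Sd * (Sa * Sv)) :=
      nm_gd_mul c1 b1
    have c3 : (3 + 2 * (|x.z.X - n.Xv s v| / Sv)) * Sd * (Sa * (Sv * Sv))
        = Sd * (Sa * (Sv * Sv)) + 2 * ((Sv + |x.z.X - n.Xv s v|) * (Sd * (Sa * Sv))) := by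
      field_simp
      ring
    rw [c3]
    rw [abs_le] at b2 c2 ⊢
    constructor <;> linarith [b2.1, b2.2, c2.1, c2.2]

omit h0 h1 in
/-- the entries of the actual phase -/
theorem nm_gd_der_ph :
    (x.phase s π q a v true n).X = (x.z.X - n.Xv s v) / s ^ v ∧
    (x.phase s π q a v true n).B = (x.z.Bt (n.tv s a) - n.Bv s a v) / s ^ (a + v) ∧
    (x.phase s π q a v true n).P
      = (x.P - 2 * n.Rv s q a * x.z.X + 2 * n.kv s q a * x.z.Bt (n.tv s a) - n.Lv s π q a v) / s ^ (q.l π a v) ∧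
    (x.phase s π q a v true n).Y = (x.z.Yt (n.tv s a) - 2 * n.Xv s v * x.z.Bt (n.tv s a) - n.Yv s a v) / s ^ (a + 2 * v) ∧
    (x.phase s π q a v true n).N = (x.z.N - n.Lv s π q a v * x.z.X - n.Rv s q a * x.z.X ^ 2
      - n.kv s q a * (x.z.Yt (n.tv s a) - 2 * x.z.X * x.z.Bt (n.tv s a)) - n.Nv s π q a v) / s ^ (q.w π a v) ∧
    (x.phase s π q a v true n).D = (x.z.Dt (n.tv s a) - n.Lv s π q a v * x.z.Bt (n.tv s a) - n.Rv s q a * x.z.Yt (n.tv s a)
      + n.kv s q a * x.z.Bt (n.tv s a) ^ 2 - n.Dv s π q a v) / s ^ (a + q.w π a v) := by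
  refine ⟨rfl, rfl, ?_, rfl, rfl, rfl⟩
  simp only [NmRaw.phase, if_true]
  rfl

omit h0 h1 in
/-- the entries of the display of the child name of `x` -/
theorem nm_gd_der_ds :
    (nmDsp s π q a v a' (x.name s π q a' v) n).th = (x.ta s a' - n.tv s a) / s ^ a ∧
    (nmDsp s π q a v a' (x.name s π q a' v) n).L = ((x.La s π q a' v - n.Lv s π q a v)
      + 2 * (x.Ra s q a' - n.Rv s q a - (x.ta s a' - n.tv s a) * n.kv s q a) * n.Xv s v
      - 2 * (x.ka s q a' - n.kv s q a) * (n.Bv s a v + (x.ta s a' - n.tv s a) * n.Xv s v)) / s ^ (q.l π a v) ∧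
    (nmDsp s π q a v a' (x.name s π q a' v) n).R
      = (x.Ra s q a' - n.Rv s q a - (x.ta s a' - n.tv s a) * n.kv s q a) * s ^ (v - q.l π a v) ∧
    (nmDsp s π q a v a' (x.name s π q a' v) n).b = (x.ka s q a' - n.kv s q a) * s ^ (a + v - q.l π a v) :=
  ⟨rfl, rfl, rfl, rfl⟩

/-- **the derivative** (I5).      LEAF L-256-NM-GRD-DB -/
theorem nm_gd_der :
    |(x.phase s π q a v true n).P - (nmDsp s π q a v a' (x.name s π q a' v) n).L
        - 2 * (nmDsp s π q a v a' (x.name s π q a' v) n).R * (x.phase s π q a v true n).X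
        + 2 * (nmDsp s π q a v a' (x.name s π q a' v) n).b * ((x.phase s π q a v true n).B
          + (nmDsp s π q a v a' (x.name s π q a' v) n).th * (x.phase s π q a v true n).X)|
      ≤ s ^ (q.l π a' v - q.l π a v) := by
  obtain ⟨fX, fB, fP, -, -, -⟩ := nm_gd_der_ph π q a v x n
  obtain ⟨dth, dL, dR, db⟩ := nm_gd_der_ds π q a v a' x n
  have hSa : (0 : ℝ) < s ^ a := Real.rpow_pos_of_pos h0 _
  have hSv : (0 : ℝ) < s ^ v := Real.rpow_pos_of_pos h0 _
  have hSl : (0 : ℝ) < s ^ (q.l π a v) := Real.rpow_pos_of_pos h0 _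
  have e1 : s ^ (a + v) = s ^ a * s ^ v := Real.rpow_add h0 _ _
  have e2 : s ^ (v - q.l π a v) = s ^ v / s ^ (q.l π a v) := Real.rpow_sub h0 _ _
  have e3 : s ^ (a + v - q.l π a v) = s ^ a * s ^ v / s ^ (q.l π a v) := by rw [Real.rpow_sub h0, e1]
  have key : (x.phase s π q a v true n).P - (nmDsp s π q a v a' (x.name s π q a' v) n).L
        - 2 * (nmDsp s π q a v a' (x.name s π q a' v) n).R * (x.phase s π q a v true n).X
        + 2 * (nmDsp s π q a v a' (x.name s π q a' v) n).b * ((x.phase s π q a v true n).B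
          + (nmDsp s π q a v a' (x.name s π q a' v) n).th * (x.phase s π q a v true n).X)
      = (x.Lraw s q a' - x.La s π q a' v) / s ^ (q.l π a v) := by
    rw [fX, fB, fP, dth, dL, dR, db, e1, e2, e3]
    simp only [NmRaw.Lraw, SfRay.Bt]
    generalize s ^ a = Sa at *
    generalize s ^ v = Sv at *
    generalize s ^ (q.l π a v) = Sl at *
    field_simp
    ring
  rw [key, abs_div, abs_of_pos hSl, Real.rpow_sub h0]
  exact div_le_div_of_nonneg_right (nm_rep_abs h0 h1 _ _) hSl.le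

omit h0 h1 in
/-- the residual entries of the display of the child name of `x` -/
theorem nm_gd_vel_ds :
    (nmDsp s π q a v a' (x.name s π q a' v) n).vel = (nmRep s (q.w π a' v - q.g) (x.Nres s π q a' v) - n.Nv s π q a v
      + ((x.La s π q a' v - n.Lv s π q a v) * n.Xv s v
        + (x.Ra s q a' - n.Rv s q a - (x.ta s a' - n.tv s a) * n.kv s q a) * n.Xv s v ^ 2
        + (x.ka s q a' - n.kv s q a) * (n.Yv s a v - (x.ta s a' - n.tv s a) * n.Xv s v ^ 2))) / s ^ (q.w π a v) ∧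
    (nmDsp s π q a v a' (x.name s π q a' v) n).pos = (nmRep s (a' + q.w π a' v - q.g) (x.Dres s π q a' v) - n.Dv s π q a v
      - (x.ta s a' - n.tv s a) * n.Nv s π q a v
      + ((x.La s π q a' v - n.Lv s π q a v) * (n.Bv s a v + (x.ta s a' - n.tv s a) * n.Xv s v)
        + (x.Ra s q a' - n.Rv s q a - (x.ta s a' - n.tv s a) * n.kv s q a)
          * ((n.Yv s a v - (x.ta s a' - n.tv s a) * n.Xv s v ^ 2) + 2 * n.Xv s v * (n.Bv s a v + (x.ta s a' - n.tv s a) * n.Xv s v))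
        - (x.ka s q a' - n.kv s q a) * (n.Bv s a v + (x.ta s a' - n.tv s a) * n.Xv s v) ^ 2)) / s ^ (a + q.w π a v) :=
  ⟨rfl, rfl⟩

/-- **the residual velocity** (I3), `g = 0`.      LEAF L-256-NM-GRD-DB -/
theorem nm_gd_vel (hg : q.g = 0) :
    |(nmDsp s π q a v a' (x.name s π q a' v) n).vel - ((x.phase s π q a v true n).N
        - (nmDsp s π q a v a' (x.name s π q a' v) n).L * (x.phase s π q a v true n).X
        - (nmDsp s π q a v a' (x.name s π q a' v) n).R * (x.phase s π q a v true n).X ^ 2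
        - (nmDsp s π q a v a' (x.name s π q a' v) n).b * (((x.phase s π q a v true n).Y
            + (nmDsp s π q a v a' (x.name s π q a' v) n).th * (x.phase s π q a v true n).X ^ 2)
          - 2 * (x.phase s π q a v true n).X * ((x.phase s π q a v true n).B
            + (nmDsp s π q a v a' (x.name s π q a' v) n).th * (x.phase s π q a v true n).X)))|
      ≤ s ^ (q.w π a' v - q.w π a v) := by
  obtain ⟨fX, fB, -, fY, fN, -⟩ := nm_gd_der_ph π q a v x n
  obtain ⟨dth, dL, dR, db⟩ := nm_gd_der_ds π q a v a' x n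
  obtain ⟨dv, -⟩ := nm_gd_vel_ds π q a v a' x n
  have hSa : (0 : ℝ) < s ^ a := Real.rpow_pos_of_pos h0 _
  have hSv : (0 : ℝ) < s ^ v := Real.rpow_pos_of_pos h0 _
  have hSl : (0 : ℝ) < s ^ (q.l π a v) := Real.rpow_pos_of_pos h0 _
  have hSw : (0 : ℝ) < s ^ (q.w π a v) := Real.rpow_pos_of_pos h0 _
  have e1 : s ^ (a + v) = s ^ a * s ^ v := Real.rpow_add h0 _ _
  have e2 : s ^ (v - q.l π a v) = s ^ v / s ^ (q.l π a v) := Real.rpow_sub h0 _ _
  have e3 : s ^ (a + v - q.l π a v) = s ^ a * s ^ v / s ^ (q.l π a v) := by rw [Real.rpow_sub h0, e1]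
  have e4 : s ^ (a + 2 * v) = s ^ a * (s ^ v * s ^ v) := by rw [two_mul, Real.rpow_add h0, Real.rpow_add h0]
  have e5 : s ^ (q.w π a v) = s ^ (q.l π a v) * s ^ v := by rw [nm_w_eq, Real.rpow_add h0]
  have key : (nmDsp s π q a v a' (x.name s π q a' v) n).vel - ((x.phase s π q a v true n).N
        - (nmDsp s π q a v a' (x.name s π q a' v) n).L * (x.phase s π q a v true n).X
        - (nmDsp s π q a v a' (x.name s π q a' v) n).R * (x.phase s π q a v true n).X ^ 2
        - (nmDsp s π q a v a' (x.name s π q a' v) n).b * (((x.phase s π q a v true n).Y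
            + (nmDsp s π q a v a' (x.name s π q a' v) n).th * (x.phase s π q a v true n).X ^ 2)
          - 2 * (x.phase s π q a v true n).X * ((x.phase s π q a v true n).B
            + (nmDsp s π q a v a' (x.name s π q a' v) n).th * (x.phase s π q a v true n).X)))
      = -((x.Nres s π q a' v - nmRep s (q.w π a' v - q.g) (x.Nres s π q a' v)) / s ^ (q.w π a v)) := by
    rw [fX, fB, fY, fN, dth, dL, dR, db, dv, e1, e2, e3, e4, e5]
    generalize nmRep s (q.w π a' v - q.g) (x.Nres s π q a' v) = N0'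
    simp only [NmRaw.Nres, SfRay.Bt, SfRay.Yt]
    generalize s ^ a = Sa at *
    generalize s ^ v = Sv at *
    generalize s ^ (q.l π a v) = Sl at *
    field_simp
    ring
  rw [key, abs_neg, abs_div, abs_of_pos hSw, Real.rpow_sub h0]
  have hb := nm_rep_abs h0 h1 (q.w π a' v - q.g) (x.Nres s π q a' v)
  rw [hg, sub_zero] at hb ⊢
  exact div_le_div_of_nonneg_right hb hSw.le

/-- **the residual position** (I4), `g = 0`.      LEAF L-256-NM-GRD-DC -/
theorem nm_gd_pos (hg : q.g = 0) :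
    |(nmDsp s π q a v a' (x.name s π q a' v) n).pos - ((x.phase s π q a v true n).D
        + (nmDsp s π q a v a' (x.name s π q a' v) n).th * (x.phase s π q a v true n).N
        - (nmDsp s π q a v a' (x.name s π q a' v) n).L * ((x.phase s π q a v true n).B
            + (nmDsp s π q a v a' (x.name s π q a' v) n).th * (x.phase s π q a v true n).X)
        - (nmDsp s π q a v a' (x.name s π q a' v) n).R * ((x.phase s π q a v true n).Y
            + (nmDsp s π q a v a' (x.name s π q a' v) n).th * (x.phase s π q a v true n).X ^ 2)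
        + (nmDsp s π q a v a' (x.name s π q a' v) n).b * ((x.phase s π q a v true n).B
            + (nmDsp s π q a v a' (x.name s π q a' v) n).th * (x.phase s π q a v true n).X) ^ 2)|
      ≤ s ^ ((a' - a) + (q.w π a' v - q.w π a v)) := by
  obtain ⟨fX, fB, -, fY, fN, fD⟩ := nm_gd_der_ph π q a v x n
  obtain ⟨dth, dL, dR, db⟩ := nm_gd_der_ds π q a v a' x n
  obtain ⟨-, dp⟩ := nm_gd_vel_ds π q a v a' x n
  have hSa : (0 : ℝ) < s ^ a := Real.rpow_pos_of_pos h0 _
  have hSv : (0 : ℝ) < s ^ v := Real.rpow_pos_of_pos h0 _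
  have hSl : (0 : ℝ) < s ^ (q.l π a v) := Real.rpow_pos_of_pos h0 _
  have hSw : (0 : ℝ) < s ^ (a + q.w π a v) := Real.rpow_pos_of_pos h0 _
  have e1 : s ^ (a + v) = s ^ a * s ^ v := Real.rpow_add h0 _ _
  have e2 : s ^ (v - q.l π a v) = s ^ v / s ^ (q.l π a v) := Real.rpow_sub h0 _ _
  have e3 : s ^ (a + v - q.l π a v) = s ^ a * s ^ v / s ^ (q.l π a v) := by rw [Real.rpow_sub h0, e1]
  have e4 : s ^ (a + 2 * v) = s ^ a * (s ^ v * s ^ v) := by rw [two_mul, Real.rpow_add h0, Real.rpow_add h0]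
  have e5 : s ^ (q.w π a v) = s ^ (q.l π a v) * s ^ v := by rw [nm_w_eq, Real.rpow_add h0]
  have e6 : s ^ (a + q.w π a v) = s ^ a * (s ^ (q.l π a v) * s ^ v) := by rw [Real.rpow_add h0, e5]
  have key : (nmDsp s π q a v a' (x.name s π q a' v) n).pos - ((x.phase s π q a v true n).D
        + (nmDsp s π q a v a' (x.name s π q a' v) n).th * (x.phase s π q a v true n).N
        - (nmDsp s π q a v a' (x.name s π q a' v) n).L * ((x.phase s π q a v true n).B
            + (nmDsp s π q a v a' (x.name s π q a' v) n).th * (x.phase s π q a v true n).X)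
        - (nmDsp s π q a v a' (x.name s π q a' v) n).R * ((x.phase s π q a v true n).Y
            + (nmDsp s π q a v a' (x.name s π q a' v) n).th * (x.phase s π q a v true n).X ^ 2)
        + (nmDsp s π q a v a' (x.name s π q a' v) n).b * ((x.phase s π q a v true n).B
            + (nmDsp s π q a v a' (x.name s π q a' v) n).th * (x.phase s π q a v true n).X) ^ 2)
      = -((x.Dres s π q a' v - nmRep s (a' + q.w π a' v - q.g) (x.Dres s π q a' v)) / s ^ (a + q.w π a v)) := by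
    rw [fX, fB, fY, fN, fD, dth, dL, dR, db, dp, e6, e1, e2, e3, e4, e5]
    generalize nmRep s (a' + q.w π a' v - q.g) (x.Dres s π q a' v) = D0'
    simp only [NmRaw.Dres, SfRay.Bt, SfRay.Yt, SfRay.Dt]
    generalize s ^ a = Sa at *
    generalize s ^ v = Sv at *
    generalize s ^ (q.l π a v) = Sl at *
    field_simp
    ring
  have e7 : (a' - a) + (q.w π a' v - q.w π a v) = (a' + q.w π a' v) - (a + q.w π a v) := by ring
  rw [key, abs_neg, abs_div, abs_of_pos hSw, e7, Real.rpow_sub h0]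
  have hb := nm_rep_abs h0 h1 (a' + q.w π a' v - q.g) (x.Dres s π q a' v)
  rw [hg, sub_zero] at hb ⊢
  exact div_le_div_of_nonneg_right hb hSw.le

end geo

/-! ## the marks: the frame shares `t_a, R_a, k_a` with `x` (they are entries of the side) -/

/-- the frame `n` carries the time, curvature and slope cuts of `x` at the time root `a` -/
def NmRaw.Fr (x : NmRaw) (s : ℝ) (q : NmQ) (a : ℝ) (n : NmNm) : Prop :=
  n.t = nmCell s a x.T ∧ n.R = x.Rc s q a ∧ n.k = x.kc s q a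

/-- the three reads of a frame -/
theorem nm_gd_fr {s : ℝ} {q : NmQ} {a : ℝ} {x : NmRaw} {n : NmNm} (hn : x.Fr s q a n) :
    n.tv s a = x.ta s a ∧ n.Rv s q a = x.Ra s q a ∧ n.kv s q a = x.ka s q a := by
  obtain ⟨e1, e2, e3⟩ := hn
  refine ⟨?_, ?_, ?_⟩
  · unfold NmNm.tv; rw [e1]; rfl
  · unfold NmNm.Rv; rw [e2]; rfl
  · unfold NmNm.kv; rw [e3]; rfl

/-- `|t_{a'} - T_end| ≤ 2 s^(a')` -/
theorem nm_gd_tT {s : ℝ} (h0 : 0 < s) (h1 : s < 1) (a' : ℝ) (x : NmRaw) (hT : |x.Te - x.T| ≤ s ^ a') :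
    |x.ta s a' - x.Te| ≤ 2 * s ^ a' := by
  have b := nm_rep_abs h0 h1 a' x.T
  unfold NmRaw.ta
  rw [abs_le] at b hT ⊢
  constructor <;> linarith [b.1, b.2, hT.1, hT.2]

theorem nm_gd_kraw_slope (x : NmRaw) {q : NmQ} (h : q.ds.cut = NmCut.slope) : x.kraw q = x.K := by
  unfold NmRaw.kraw; rw [h]

theorem nm_gd_kraw_zero (x : NmRaw) {q : NmQ} (h : q.ds.cut ≠ NmCut.slope) : x.kraw q = 0 := by
  unfold NmRaw.kraw
  cases hc : q.ds.cut with
  | slope => exact absurd hc h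
  | const => rfl
  | none => rfl

theorem nm_gd_Rraw_slope (x : NmRaw) (s : ℝ) {q : NmQ} (a : ℝ) (h : q.ds.cut = NmCut.slope) :
    x.Rraw s q a = x.be + (x.ta s a - x.Te) * x.K := by
  unfold NmRaw.Rraw; rw [h]

theorem nm_gd_Rraw_const (x : NmRaw) (s : ℝ) {q : NmQ} (a : ℝ) (h : q.ds.cut = NmCut.const) :
    x.Rraw s q a = x.be := by
  unfold NmRaw.Rraw; rw [h]

/-- the numerator of `𝓡 - r` -/
theorem nm_gd_rnum {s : ℝ} (h0 : 0 < s) (h1 : s < 1) (q : NmQ) (a a' : ℝ) (x : NmRaw) (hc : q.ds.cut ≠ NmCut.none)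
    (hT : |x.Te - x.T| ≤ s ^ a') :
    |x.Ra s q a' - x.be + (x.Te - x.ta s a') * x.ka s q a| ≤ s ^ (q.ds.b a') + 2 * s ^ a' * s ^ (q.ds.b a - a) := by
  have t1 := nm_gd_tT h0 h1 a' x hT
  have r1 : |x.Rraw s q a' - x.Ra s q a'| ≤ s ^ (q.ds.b a') := nm_rep_abs h0 h1 _ _
  have p1 : 0 < s ^ a' := Real.rpow_pos_of_pos h0 _
  have p2 : 0 < s ^ (q.ds.b a - a) := Real.rpow_pos_of_pos h0 _
  by_cases hs : q.ds.cut = NmCut.slope
  · have k1 : |x.kraw q - x.ka s q a| ≤ s ^ (q.ds.b a - a) := nm_rep_abs h0 h1 _ _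
    rw [nm_gd_kraw_slope x hs] at k1
    rw [nm_gd_Rraw_slope x s a' hs] at r1
    have m := nm_gd_mul t1 k1
    have e : x.Ra s q a' - x.be + (x.Te - x.ta s a') * x.ka s q a
        = -(x.be + (x.ta s a' - x.Te) * x.K - x.Ra s q a') + (x.ta s a' - x.Te) * (x.K - x.ka s q a) := by ring
    rw [e]
    rw [abs_le] at r1 m ⊢
    constructor <;> linarith [r1.1, r1.2, m.1, m.2]
  · have hcc : q.ds.cut = NmCut.const := by
      cases h : q.ds.cut with
      | slope => exact absurd h hs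
      | const => rfl
      | none => exact absurd h hc
    rw [nm_gd_Rraw_const x s a' hcc] at r1
    rw [nm_gc_ka_zero x s q a hs, mul_zero, add_zero, abs_sub_comm]
    have := mul_pos p1 p2
    linarith

section marks

variable {s : ℝ} (h0 : 0 < s) (h1 : s < 1) {π : SfPar} {q : NmQ} (hq : q.Ok π) {a v a' : ℝ} (ha : a ≤ a') (x : NmRaw) (n : NmNm)
  (hn : x.Fr s q a n)
include h0 h1 hq ha hn

/-- **the child time reads `θ`**: `θ' - θ = (t_{a'} - T_end) / s^a`.      LEAF L-256-NM-GRD-DM -/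
theorem nm_gd_th (quad : Bool) (hT : |x.Te - x.T| ≤ s ^ a') :
    |(nmDsp s π q a v a' (x.name s π q a' v) n).th - (x.mark s π q a quad).th| ≤ 2 * s ^ (a' - a) := by
  obtain ⟨f1, -, -⟩ := nm_gd_fr hn
  have hSa : 0 < s ^ a := Real.rpow_pos_of_pos h0 _
  have t1 := nm_gd_tT h0 h1 a' x hT
  have e : (nmDsp s π q a v a' (x.name s π q a' v) n).th - (x.mark s π q a quad).th = (x.ta s a' - x.Te) / s ^ a := by
    show (x.ta s a' - n.tv s a) / s ^ a - (x.Te - x.ta s a) / s ^ a = _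
    rw [f1]
    ring
  rw [e, abs_div, abs_of_pos hSa, div_le_iff₀ hSa, mul_assoc, ← Real.rpow_add h0]
  simpa using t1

/-- **the slope mark `𝔨`, on every branch**: `(k' - k_a) s^(a-b) - 𝔨 = (k' - K) s^(a-b)`; no slope cut: `𝔨 = 0`.      LEAF L-256-NM-GRD-DM -/
theorem nm_gd_k (quad : Bool) :
    (q.ds.cut = NmCut.slope →
      |((x.name s π q a' v).kv s q a' - n.kv s q a) * s ^ (a - q.ds.b a) - (x.mark s π q a quad).k| ≤ s ^ ((q.ds.bs - 1) * (a' - a))) ∧
    (q.ds.cut ≠ NmCut.slope → (x.mark s π q a quad).k = 0) := by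
  obtain ⟨-, -, f3⟩ := nm_gd_fr hn
  constructor
  · intro _
    have hp : 0 < s ^ (a - q.ds.b a) := Real.rpow_pos_of_pos h0 _
    have k1 : |x.kraw q - x.ka s q a'| ≤ s ^ (q.ds.b a' - a') := nm_rep_abs h0 h1 _ _
    have e : ((x.name s π q a' v).kv s q a' - n.kv s q a) * s ^ (a - q.ds.b a) - (x.mark s π q a quad).k
        = -(x.kraw q - x.ka s q a') * s ^ (a - q.ds.b a) := by
      show (x.ka s q a' - n.kv s q a) * s ^ (a - q.ds.b a) - (x.kraw q - x.ka s q a) * s ^ (a - q.ds.b a) = _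
      rw [f3]
      ring
    have e2 : s ^ ((q.ds.bs - 1) * (a' - a)) = s ^ (q.ds.b a' - a') * s ^ (a - q.ds.b a) := by
      rw [← Real.rpow_add h0]
      congr 1
      unfold NmDs.b
      ring
    rw [e, abs_mul, abs_neg, abs_of_pos hp, e2]
    exact mul_le_mul_of_nonneg_right k1 hp.le
  · intro hs
    show (x.kraw q - x.ka s q a) * s ^ (a - q.ds.b a) = 0
    rw [nm_gd_kraw_zero x hs, nm_gc_ka_zero x s q a hs]
    simp

/-- **quadratic branch** (`l = b + v`, a curvature cut): `𝓡` reads `r`, `𝔟` reads `𝔨`.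
`𝓡 - r = ((R' - Rraw') + (t' - T_end) (K - k_a)) / s^b` (slope), `(R' - β) / s^b` (const);   `𝔟 - 𝔨 = (k' - K) s^(a-b)`.      LEAF L-256-NM-GRD-DM -/
theorem nm_gd_quad (hl : q.l π a v = q.ds.b a + v) (hc : q.ds.cut ≠ NmCut.none) (hT : |x.Te - x.T| ≤ s ^ a') :
    |(nmDsp s π q a v a' (x.name s π q a' v) n).R - (x.mark s π q a true).r| ≤ s ^ (q.ds.bs * (a' - a)) + 2 * s ^ (a' - a) ∧
    (q.ds.cut = NmCut.slope →
      |(nmDsp s π q a v a' (x.name s π q a' v) n).b - (x.mark s π q a true).k| ≤ s ^ ((q.ds.bs - 1) * (a' - a))) ∧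
    (q.ds.cut ≠ NmCut.slope → (nmDsp s π q a v a' (x.name s π q a' v) n).b = 0 ∧ (x.mark s π q a true).k = 0) := by
  obtain ⟨f1, f2, f3⟩ := nm_gd_fr hn
  have hk := nm_gd_k h0 h1 hq ha (v := v) x n hn true
  have eb : (nmDsp s π q a v a' (x.name s π q a' v) n).b
      = ((x.name s π q a' v).kv s q a' - n.kv s q a) * s ^ (a - q.ds.b a) := by
    show ((x.name s π q a' v).kv s q a' - n.kv s q a) * s ^ (a + v - q.l π a v) = _
    rw [hl]
    congr 2
    ring
  refine ⟨?_, ?_, ?_⟩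
  · have hb : 0 < s ^ (q.ds.b a) := Real.rpow_pos_of_pos h0 _
    have r1 := nm_gd_rnum h0 h1 q a a' x hc hT
    have e : (nmDsp s π q a v a' (x.name s π q a' v) n).R - (x.mark s π q a true).r
        = (x.Ra s q a' - x.be + (x.Te - x.ta s a') * x.ka s q a) / s ^ (q.ds.b a) := by
      show (x.Ra s q a' - n.Rv s q a - (x.ta s a' - n.tv s a) * n.kv s q a) * s ^ (v - q.l π a v)
        - (x.be - (x.Ra s q a + (x.Te - x.ta s a) * x.ka s q a)) / s ^ (q.ds.b a) = _
      have e0 : s ^ (v - q.l π a v) = (s ^ (q.ds.b a))⁻¹ := by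
        rw [hl, ← Real.rpow_neg h0.le]
        congr 1
        ring
      rw [f1, f2, f3, e0]
      field_simp
      ring
    have e1 : s ^ (q.ds.b a') = s ^ (q.ds.bs * (a' - a)) * s ^ (q.ds.b a) := by
      rw [← Real.rpow_add h0]
      congr 1
      unfold NmDs.b
      ring
    have e2 : s ^ a' * s ^ (q.ds.b a - a) = s ^ (a' - a) * s ^ (q.ds.b a) := by
      rw [← Real.rpow_add h0, ← Real.rpow_add h0]
      congr 1
      ring
    rw [e, abs_div, abs_of_pos hb, div_le_iff₀ hb]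
    calc _ ≤ _ := r1
      _ = _ := by rw [e1, mul_assoc, e2]; ring
  · intro hs
    rw [eb]
    exact hk.1 hs
  · intro hs
    refine ⟨?_, hk.2 hs⟩
    rw [eb, f3]
    show (x.ka s q a' - x.ka s q a) * _ = 0
    rw [nm_gc_ka_zero x s q a hs, nm_gc_ka_zero x s q a' hs]
    simp

/-- **linear branch** (`l = b_1(a)`, the frame also carries the cut `L` of `x`): the mark `r` is the `P`-entry of the actual phase; `𝓡`, `𝔟` are `O(σ s^(v-l))`, `σ` = the curvature scale (`nm_est_dR`, `nm_est_dk`).      LEAF L-256-NM-GRD-DM -/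
theorem nm_gd_lin (hl : q.l π a v = π.b1 a) (hL : n.L = nmCell s (π.b1 a) (x.Lraw s q a)) :
    (x.mark s π q a false).r = (x.phase s π q a v true n).P ∧
    |(nmDsp s π q a v a' (x.name s π q a' v) n).R| ≤ 3 * ((⟨s, π, q, a, v, a', v⟩ : NmG).cs * s ^ (v - q.l π a v)) ∧
    |(nmDsp s π q a v a' (x.name s π q a' v) n).b| ≤ 2 * ((⟨s, π, q, a, v, a', v⟩ : NmG).cs * s ^ (v - q.l π a v)) := by
  obtain ⟨f1, f2, f3⟩ := nm_gd_fr hn
  have hG : (⟨s, π, q, a, v, a', v⟩ : NmG).Ok := ⟨h0, h1, hq, ha, le_rfl⟩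
  have hp : 0 < s ^ (v - q.l π a v) := Real.rpow_pos_of_pos h0 _
  refine ⟨?_, ?_, ?_⟩
  · show (x.Lraw s q a - nmRep s (π.b1 a) (x.Lraw s q a)) / s ^ (π.b1 a)
      = (x.P - 2 * n.Rv s q a * x.z.X + 2 * n.kv s q a * x.z.Bt (n.tv s a) - n.Lv s π q a v) / s ^ (q.l π a v)
    have eL : n.Lv s π q a v = nmRep s (π.b1 a) (x.Lraw s q a) := by
      unfold NmNm.Lv
      rw [hl, hL]
      rfl
    rw [f1, f2, f3, eL, hl]
    rfl
  · have d := nm_est_dR hG x
    have e : (nmDsp s π q a v a' (x.name s π q a' v) n).R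
        = -((⟨s, π, q, a, v, a', v⟩ : NmG).dR ((⟨s, π, q, a, v, a', v⟩ : NmG).lo x) ((⟨s, π, q, a, v, a', v⟩ : NmG).hi x))
          * s ^ (v - q.l π a v) := by
      show (x.Ra s q a' - n.Rv s q a - (x.ta s a' - n.tv s a) * n.kv s q a) * s ^ (v - q.l π a v)
        = -(x.Ra s q a + (x.ta s a' - x.ta s a) * x.ka s q a - x.Ra s q a') * s ^ (v - q.l π a v)
      rw [f1, f2, f3]
      ring
    rw [e, abs_mul, abs_neg, abs_of_pos hp, ← mul_assoc]
    exact mul_le_mul_of_nonneg_right d hp.le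
  · have d := nm_est_dk hG x
    have hp2 : 0 < s ^ (a + v - q.l π a v) := Real.rpow_pos_of_pos h0 _
    have e : (nmDsp s π q a v a' (x.name s π q a' v) n).b
        = -((⟨s, π, q, a, v, a', v⟩ : NmG).dk ((⟨s, π, q, a, v, a', v⟩ : NmG).lo x) ((⟨s, π, q, a, v, a', v⟩ : NmG).hi x))
          * s ^ (a + v - q.l π a v) := by
      show (x.ka s q a' - n.kv s q a) * s ^ (a + v - q.l π a v)
        = -(x.ka s q a - x.ka s q a') * s ^ (a + v - q.l π a v)
      rw [f3]
      ring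
    have e2 : s ^ (v - q.l π a v) = s ^ (-a) * s ^ (a + v - q.l π a v) := by
      rw [← Real.rpow_add h0]
      congr 1
      ring
    rw [e, abs_mul, abs_neg, abs_of_pos hp2, e2]
    calc _ ≤ 2 * (⟨s, π, q, a, v, a', v⟩ : NmG).cs * s ^ (-a) * s ^ (a + v - q.l π a v) :=
          mul_le_mul_of_nonneg_right d hp2.le
      _ = _ := by ring

end marks

/-- **the exact marks are bounded** as soon as the endpoint time is `s^a`-close to the terminal time.      LEAF L-256-NM-GRD-DM -/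
theorem nm_gd_mark_bd {s : ℝ} (h0 : 0 < s) (h1 : s < 1) (π : SfPar) (q : NmQ) (a : ℝ) (x : NmRaw) (quad : Bool)
    (hc : quad = true → q.ds.cut ≠ NmCut.none) (hT : |x.Te - x.T| ≤ s ^ a) :
    |(x.mark s π q a quad).th| ≤ 2 ∧ |(x.mark s π q a quad).r| ≤ 3 ∧ |(x.mark s π q a quad).k| ≤ 1 := by
  have hSa : 0 < s ^ a := Real.rpow_pos_of_pos h0 _
  have t1 := nm_gd_tT h0 h1 a x hT
  refine ⟨?_, ?_, ?_⟩
  · show |(x.Te - x.ta s a) / s ^ a| ≤ 2
    rw [abs_div, abs_of_pos hSa, div_le_iff₀ hSa, abs_sub_comm]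
    exact t1
  · cases quad with
    | true =>
      have hb : 0 < s ^ (q.ds.b a) := Real.rpow_pos_of_pos h0 _
      have r1 := nm_gd_rnum h0 h1 q a a x (hc rfl) hT
      show |(x.be - (x.Ra s q a + (x.Te - x.ta s a) * x.ka s q a)) / s ^ (q.ds.b a)| ≤ 3
      have e2 : s ^ a * s ^ (q.ds.b a - a) = s ^ (q.ds.b a) := by
        rw [← Real.rpow_add h0]
        congr 1
        ring
      rw [mul_assoc, e2] at r1
      rw [abs_div, abs_of_pos hb, div_le_iff₀ hb]
      have e : x.be - (x.Ra s q a + (x.Te - x.ta s a) * x.ka s q a)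
          = -(x.Ra s q a - x.be + (x.Te - x.ta s a) * x.ka s q a) := by ring
      rw [e, abs_neg]
      linarith
    | false =>
      have hb : 0 < s ^ (π.b1 a) := Real.rpow_pos_of_pos h0 _
      show |(x.Lraw s q a - nmRep s (π.b1 a) (x.Lraw s q a)) / s ^ (π.b1 a)| ≤ 3
      rw [abs_div, abs_of_pos hb, div_le_iff₀ hb]
      have := nm_rep_abs h0 h1 (π.b1 a) (x.Lraw s q a)
      linarith
  · have hp : 0 < s ^ (a - q.ds.b a) := Real.rpow_pos_of_pos h0 _
    have k1 : |x.kraw q - x.ka s q a| ≤ s ^ (q.ds.b a - a) := nm_rep_abs h0 h1 _ _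
    show |(x.kraw q - x.ka s q a) * s ^ (a - q.ds.b a)| ≤ 1
    rw [abs_mul, abs_of_pos hp]
    calc _ ≤ s ^ (q.ds.b a - a) * s ^ (a - q.ds.b a) := mul_le_mul_of_nonneg_right k1 hp.le
      _ = 1 := by
        rw [← Real.rpow_add h0]
        simp

end

end Claimed.Agent.R256
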