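import Claimed.Agent.R256.Nm.Grd.Dsp
import Claimed.Agent.R256.Lay.Prod

/-!
# Row 256 (S0496), unit NM, block GRD-IN, file 3: OWN FRAME, STORED MARKS, WIDTH READ (X11), FIBRE COORDINATES      (architect helper190; prefix `nm_go_`, `nm_gw_`, `nm_gq_`)

PAPER-FREE.
* `nm_go_own`       the phase of a raw datum in the frame of its OWN name lies in the unit cube (`g = 0`): every entry is `(y - nmRep y) / s^depth`.
* `nm_go_store_bd`, `nm_go_store_eq`, `nm_go_store_fin`      stored marks: bounded by `B + 1`, `δ^Rm`-close to a bounded exact mark, at most `δ^(-RX)` values.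
* `nm_gw_phase`     X11 (04 l.936-947): two raw data with the same names at `(a, v)` and at `(a, v')`, `v ≤ v'`, have `3 s^(v'-v)`-close phases in the (common) own frame at `(a, v)`.
* `nmFib`, `nm_gq_itQ`, `nm_gq_lip`      the five fibre coordinates of `itQ`; they are Lipschitz on bounded sets.
* `nmRd`, `nm_gq_read_q`, `nm_gq_read_l`      what a display reads (`lay_read_quad`, `lay_read_lin` of helper189 in vector form).
-/

set_option autoImplicit false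

namespace Claimed.Agent.R256

open Claimed.Agent.R255
open Classical

noncomputable section

/-! ## own frame -/

/-- LEAF L-256-NM-GRD-O -/
theorem nm_go_own {s : ℝ} (h0 : 0 < s) (h1 : s < 1) (π : SfPar) (q : NmQ) (hg : q.g = 0) (a v : ℝ) (quad : Bool) (x : NmRaw) :
    (x.phase s π q a v quad (x.name s π q a v)).nrm ≤ 1 := by
  have key : ∀ b y : ℝ, |(y - nmRep s b y) / s ^ b| ≤ 1 := by
    intro b y
    have hp := Real.rpow_pos_of_pos h0 b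
    rw [abs_div, abs_of_pos hp, div_le_one hp]
    exact nm_rep_abs h0 h1 b y
  have e : q.w π a v - q.g = q.w π a v := by rw [hg, sub_zero]
  have e' : a + q.w π a v - q.g = a + q.w π a v := by rw [hg, sub_zero]
  unfold ItPh.nrm
  refine max_le (max_le (max_le ?_ ?_) (max_le ?_ ?_)) (max_le ?_ ?_)
  · exact key v x.z.X
  · exact key (a + v) (x.z.Bt (x.ta s a))
  · cases quad
    · show |(0 : ℝ)| ≤ 1
      simp
    · exact key (q.l π a v) (x.Lraw s q a)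
  · exact key (a + 2 * v) (x.z.Yt (x.ta s a) - 2 * nmRep s v x.z.X * x.z.Bt (x.ta s a))
  · show |(x.Nres s π q a v - nmRep s (q.w π a v - q.g) (x.Nres s π q a v)) / s ^ (q.w π a v)| ≤ 1
    rw [e]
    exact key _ _
  · show |(x.Dres s π q a v - nmRep s (a + q.w π a v - q.g) (x.Dres s π q a v)) / s ^ (a + q.w π a v)| ≤ 1
    rw [e']
    exact key _ _

/-- the entries of a phase other than `P` do not depend on the flag -/
theorem nm_go_flag (s : ℝ) (π : SfPar) (q : NmQ) (a v : ℝ) (quad : Bool) (x : NmRaw) (n : NmNm) :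
    (x.phase s π q a v quad n).X = (x.phase s π q a v true n).X ∧ (x.phase s π q a v quad n).B = (x.phase s π q a v true n).B ∧
    (x.phase s π q a v quad n).Y = (x.phase s π q a v true n).Y ∧ (x.phase s π q a v quad n).N = (x.phase s π q a v true n).N ∧
    (x.phase s π q a v quad n).D = (x.phase s π q a v true n).D ∧ (x.phase s π q a v false n).P = 0 :=
  ⟨rfl, rfl, rfl, rfl, rfl, rfl⟩

/-! ## stored marks -/

/-- LEAF L-256-NM-GRD-O -/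
theorem nm_go_store_bd {δ Rm B : ℝ} (h0 : 0 < δ) (h1 : δ < 1) (hR : 0 ≤ Rm) (hB : 0 ≤ B) (μ : ItMk) :
    |(nmStore δ Rm B μ).th| ≤ B + 1 ∧ |(nmStore δ Rm B μ).r| ≤ B + 1 ∧ |(nmStore δ Rm B μ).k| ≤ B + 1 := by
  have hd : δ ^ Rm ≤ 1 := Real.rpow_le_one h0.le h1.le hR
  have key : ∀ y : ℝ, |y| ≤ B → |trep δ Rm y| ≤ B + 1 := by
    intro y hy
    have h2 := tl_abs_sub_trep h0 Rm y
    have h3 : |trep δ Rm y| ≤ |y| + |y - trep δ Rm y| := by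
      have : trep δ Rm y = y - (y - trep δ Rm y) := by ring
      calc |trep δ Rm y| = |y - (y - trep δ Rm y)| := by rw [← this]
        _ ≤ |y| + |y - trep δ Rm y| := abs_sub _ _
    linarith
  unfold nmStore
  by_cases h : |μ.th| ≤ B ∧ |μ.r| ≤ B ∧ |μ.k| ≤ B
  · rw [if_pos h]
    exact ⟨key _ h.1, key _ h.2.1, key _ h.2.2⟩
  · rw [if_neg h]
    have : |(0 : ℝ)| ≤ B + 1 := by rw [abs_zero]; linarith
    exact ⟨this, this, this⟩

theorem nm_go_store_eq {δ Rm B : ℝ} (μ : ItMk) (h : |μ.th| ≤ B ∧ |μ.r| ≤ B ∧ |μ.k| ≤ B) :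
    nmStore δ Rm B μ = ⟨trep δ Rm μ.th, trep δ Rm μ.r, trep δ Rm μ.k⟩ := by
  unfold nmStore
  rw [if_pos h]

/-- at most `((4 B + 2) δ^(-Rm))^3 + 1` stored marks.      LEAF L-256-NM-GRD-O -/
theorem nm_go_store_fin {δ Rm B RX : ℝ} (h0 : 0 < δ) (h1 : δ < 1) (hR : 0 ≤ Rm) (hB : 0 ≤ B)
    (hX : (4 * B + 3) ^ 3 + 1 ≤ δ ^ (-(RX - 3 * Rm))) : ∃ S : Finset ItMk, (S.card : ℝ) ≤ δ ^ (-RX) ∧ ∀ μ, nmStore δ Rm B μ ∈ S := by
  obtain ⟨W, hW⟩ : ∃ W : ℝ, W = 2 ^ (tlev δ Rm) := ⟨_, rfl⟩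
  have hW0 : 0 < W := by rw [hW]; positivity
  have hp : 0 < δ ^ Rm := Real.rpow_pos_of_pos h0 Rm
  have hW2 : W < 2 * δ ^ (-Rm) := by
    have := tl_cellw_lt h0 h1 hR
    rw [← hW] at this
    rw [Real.rpow_neg h0.le, ← div_eq_mul_inv, lt_div_iff₀ hp]
    linarith
  have hd1 : 1 ≤ δ ^ (-Rm) := Real.one_le_rpow_of_pos_of_le_one_of_nonpos h0 h1.le (by linarith)
  obtain ⟨I, hI⟩ : ∃ I : Finset ℤ, I = Finset.Icc ⌊-B * W⌋ ⌊B * W⌋ := ⟨_, rfl⟩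
  have hIc : (I.card : ℝ) ≤ (4 * B + 3) * δ ^ (-Rm) := by
    rw [hI, Int.card_Icc]
    have h1' : ((⌊B * W⌋ + 1 - ⌊-B * W⌋).toNat : ℝ) ≤ max ((⌊B * W⌋ + 1 - ⌊-B * W⌋ : ℤ) : ℝ) 0 := by
      rcases le_total 0 (⌊B * W⌋ + 1 - ⌊-B * W⌋) with hn | hn
      · have : ((⌊B * W⌋ + 1 - ⌊-B * W⌋).toNat : ℤ) = ⌊B * W⌋ + 1 - ⌊-B * W⌋ := Int.toNat_of_nonneg hn
        have h2 : ((⌊B * W⌋ + 1 - ⌊-B * W⌋).toNat : ℝ) = ((⌊B * W⌋ + 1 - ⌊-B * W⌋ : ℤ) : ℝ) := by exact_mod_cast this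
        rw [h2]; exact le_max_left _ _
      · rw [Int.toNat_of_nonpos hn]; simp
    refine h1'.trans (max_le ?_ (by positivity))
    push_cast
    have a1 := Int.floor_le (B * W)
    have a2 := Int.lt_floor_add_one (-B * W)
    have a3 : B * W ≤ B * (2 * δ ^ (-Rm)) := mul_le_mul_of_nonneg_left hW2.le hB
    nlinarith
  have hmem : ∀ y : ℝ, |y| ≤ B → tcell δ Rm y ∈ I := by
    intro y hy
    rw [hI, Finset.mem_Icc]
    obtain ⟨y1, y2⟩ := abs_le.1 hy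
    unfold tcell
    rw [← hW]
    exact ⟨Int.floor_mono (by nlinarith), Int.floor_mono (by nlinarith)⟩
  refine ⟨insert (⟨0, 0, 0⟩ : ItMk) ((I ×ˢ I ×ˢ I).image fun n : ℤ × ℤ × ℤ => (⟨(n.1 : ℝ) / W, (n.2.1 : ℝ) / W, (n.2.2 : ℝ) / W⟩ : ItMk)), ?_, ?_⟩
  · have c1 : ((insert (⟨0, 0, 0⟩ : ItMk) ((I ×ˢ I ×ˢ I).image fun n : ℤ × ℤ × ℤ =>
        (⟨(n.1 : ℝ) / W, (n.2.1 : ℝ) / W, (n.2.2 : ℝ) / W⟩ : ItMk))).card : ℝ) ≤ (I.card : ℝ) ^ 3 + 1 := by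
      have a1 := Finset.card_insert_le (⟨0, 0, 0⟩ : ItMk) ((I ×ˢ I ×ˢ I).image fun n : ℤ × ℤ × ℤ =>
        (⟨(n.1 : ℝ) / W, (n.2.1 : ℝ) / W, (n.2.2 : ℝ) / W⟩ : ItMk))
      have a2 := Finset.card_image_le (s := I ×ˢ I ×ˢ I) (f := fun n : ℤ × ℤ × ℤ =>
        (⟨(n.1 : ℝ) / W, (n.2.1 : ℝ) / W, (n.2.2 : ℝ) / W⟩ : ItMk))
      rw [Finset.card_product, Finset.card_product] at a2
      have a3 : (insert (⟨0, 0, 0⟩ : ItMk) ((I ×ˢ I ×ˢ I).image fun n : ℤ × ℤ × ℤ =>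
        (⟨(n.1 : ℝ) / W, (n.2.1 : ℝ) / W, (n.2.2 : ℝ) / W⟩ : ItMk))).card ≤ I.card * (I.card * I.card) + 1 := by omega
      calc _ ≤ ((I.card * (I.card * I.card) + 1 : ℕ) : ℝ) := by exact_mod_cast a3
        _ = (I.card : ℝ) ^ 3 + 1 := by push_cast; ring
    refine c1.trans ?_
    have c2 : (I.card : ℝ) ^ 3 ≤ ((4 * B + 3) * δ ^ (-Rm)) ^ 3 := pow_le_pow_left₀ (Nat.cast_nonneg _) hIc 3
    have c3 : (δ ^ (-Rm)) ^ 3 = δ ^ (-(3 * Rm)) := by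
      rw [← Real.rpow_natCast, ← Real.rpow_mul h0.le]
      congr 1
      push_cast
      ring
    have c4 : 1 ≤ δ ^ (-(3 * Rm)) := Real.one_le_rpow_of_pos_of_le_one_of_nonpos h0 h1.le (by linarith)
    have c5 : δ ^ (-RX) = δ ^ (-(RX - 3 * Rm)) * δ ^ (-(3 * Rm)) := by
      rw [← Real.rpow_add h0]
      congr 1
      ring
    rw [c5]
    calc (I.card : ℝ) ^ 3 + 1 ≤ (4 * B + 3) ^ 3 * δ ^ (-(3 * Rm)) + 1 * δ ^ (-(3 * Rm)) := by
          rw [mul_pow, c3] at c2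
          linarith
      _ = ((4 * B + 3) ^ 3 + 1) * δ ^ (-(3 * Rm)) := by ring
      _ ≤ δ ^ (-(RX - 3 * Rm)) * δ ^ (-(3 * Rm)) := mul_le_mul_of_nonneg_right hX (by linarith)
  · intro μ
    unfold nmStore
    by_cases h : |μ.th| ≤ B ∧ |μ.r| ≤ B ∧ |μ.k| ≤ B
    · rw [if_pos h]
      apply Finset.mem_insert_of_mem
      rw [Finset.mem_image]
      refine ⟨(tcell δ Rm μ.th, tcell δ Rm μ.r, tcell δ Rm μ.k), ?_, ?_⟩
      · rw [Finset.mem_product, Finset.mem_product]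
        exact ⟨hmem _ h.1, hmem _ h.2.1, hmem _ h.2.2⟩
      · rw [hW]
        rfl
    · rw [if_neg h]
      exact Finset.mem_insert_self _ _

/-! ## X11 -/

/-- **X11 on two raw data**.   With `t, R, k, L, xc` common (same name at `(a,v)`), `L', xc'` common (same name at `(a,v')`), `0 ≤ L' - L ≤ s^l`, `0 ≤ xc' - xc ≤ s^v` (`nm_gc_rep_mono`, `nm_rep_lt`):
`ΔX ≤ s^v'`, `ΔB_t ≤ s^(a+v')`, `ΔLraw ≤ s^l'`, `Δ(Y_t - 2 xc B_t) = Δ(Y_t - 2 xc' B_t) + 2 (xc' - xc) ΔB_t`, `ΔNres = ΔNres' + (L' - L) ΔX`, `ΔDres = ΔDres' + (L' - L) ΔB_t`;  `w' - w = (l' - l) + (v' - v)`, `l ≤ l'` (`nm_l_mono`).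
LEAF L-256-NM-GRD-W -/
theorem nm_gw_phase {s : ℝ} (h0 : 0 < s) (h1 : s < 1) {π : SfPar} {q : NmQ} (hq : q.Ok π) (hg : q.g = 0) (a v v' : ℝ) (hv : v ≤ v') (quad : Bool)
    (hl : quad = true → q.l π a v + (v' - v) ≤ q.l π a v') (x y : NmRaw)
    (hn : x.name s π q a v = y.name s π q a v) (hn' : x.name s π q a v' = y.name s π q a v') :
    nmPhDist (x.phase s π q a v quad (x.name s π q a v)) (y.phase s π q a v quad (y.name s π q a v)) ≤ 3 * s ^ (v' - v) := by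
  have hG : (⟨s, π, q, a, v, a, v'⟩ : NmG).Ok := ⟨h0, h1, hq, le_rfl, hv⟩
  have hll : q.l π a v ≤ q.l π a v' := nm_l_mono hG
  have hpos : ∀ u : ℝ, 0 < s ^ u := fun u => Real.rpow_pos_of_pos h0 u
  obtain ⟨E, hE⟩ : ∃ E : ℝ, E = s ^ (v' - v) := ⟨_, rfl⟩
  have hE0 : 0 < E := by rw [hE]; exact hpos _
  have hE1 : E ≤ 1 := by rw [hE]; exact Real.rpow_le_one h0.le h1.le (by linarith)
  rw [← hE]
  have hsplit : ∀ u u' : ℝ, u' = u + (v' - v) → s ^ u' = s ^ u * E := fun u u' h => by rw [h, hE, Real.rpow_add h0]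
  have hanti : ∀ u u' : ℝ, u ≤ u' → s ^ u' ≤ s ^ u := fun u u' h => Real.rpow_le_rpow_of_exponent_ge h0 h1.le h
  have rep : ∀ (b u u' : ℝ), nmCell s b u = nmCell s b u' → nmRep s b u = nmRep s b u' := fun b u u' h => by
    unfold nmRep
    rw [h]
  have eL : x.La s π q a v = y.La s π q a v := rep _ _ _ (congrArg NmNm.L hn)
  have eX : nmRep s v x.z.X = nmRep s v y.z.X := rep _ _ _ (congrArg NmNm.X hn)
  have eB : nmRep s (a + v) (x.z.Bt (x.ta s a)) = nmRep s (a + v) (y.z.Bt (y.ta s a)) := rep _ _ _ (congrArg NmNm.B hn)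
  have eY : nmRep s (a + 2 * v) (x.z.Yt (x.ta s a) - 2 * nmRep s v x.z.X * x.z.Bt (x.ta s a))
      = nmRep s (a + 2 * v) (y.z.Yt (y.ta s a) - 2 * nmRep s v y.z.X * y.z.Bt (y.ta s a)) := rep _ _ _ (congrArg NmNm.Y hn)
  have eN : nmRep s (q.w π a v - q.g) (x.Nres s π q a v) = nmRep s (q.w π a v - q.g) (y.Nres s π q a v) :=
    rep _ _ _ (congrArg NmNm.N hn)
  have eD : nmRep s (a + q.w π a v - q.g) (x.Dres s π q a v) = nmRep s (a + q.w π a v - q.g) (y.Dres s π q a v) :=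
    rep _ _ _ (congrArg NmNm.D hn)
  have eL' : x.La s π q a v' = y.La s π q a v' := rep _ _ _ (congrArg NmNm.L hn')
  have eX' : nmRep s v' x.z.X = nmRep s v' y.z.X := rep _ _ _ (congrArg NmNm.X hn')
  have cX : |x.z.X - y.z.X| ≤ s ^ v' := nm_close_of_cell h0 h1 (congrArg NmNm.X hn')
  have cB : |x.z.Bt (x.ta s a) - y.z.Bt (y.ta s a)| ≤ s ^ (a + v') := nm_close_of_cell h0 h1 (congrArg NmNm.B hn')
  have cL : |x.Lraw s q a - y.Lraw s q a| ≤ s ^ (q.l π a v') := nm_close_of_cell h0 h1 (congrArg NmNm.L hn')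
  have cY : |(x.z.Yt (x.ta s a) - 2 * nmRep s v' x.z.X * x.z.Bt (x.ta s a))
      - (y.z.Yt (y.ta s a) - 2 * nmRep s v' y.z.X * y.z.Bt (y.ta s a))| ≤ s ^ (a + 2 * v') :=
    nm_close_of_cell h0 h1 (congrArg NmNm.Y hn')
  have cN : |x.Nres s π q a v' - y.Nres s π q a v'| ≤ s ^ (q.w π a v' - q.g) := nm_close_of_cell h0 h1 (congrArg NmNm.N hn')
  have cD : |x.Dres s π q a v' - y.Dres s π q a v'| ≤ s ^ (a + q.w π a v' - q.g) :=
    nm_close_of_cell h0 h1 (congrArg NmNm.D hn')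
  have hw : q.w π a v = q.l π a v + v := nm_w_eq q π a v
  have hw' : q.w π a v' = q.l π a v' + v' := nm_w_eq q π a v'
  have dL0 : 0 ≤ x.La s π q a v' - x.La s π q a v := sub_nonneg.2 (nm_gc_rep_mono h0 h1 hll _)
  have dL1 : x.La s π q a v' - x.La s π q a v ≤ s ^ (q.l π a v) := by
    have g1 := nm_rep_le s (q.l π a v') (x.Lraw s q a)
    have g2 := nm_rep_lt s (q.l π a v) (x.Lraw s q a)
    have g3 := nm_wd_le h0 h1 (q.l π a v)
    unfold NmRaw.La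
    linarith
  have dLa : |x.La s π q a v' - x.La s π q a v| ≤ s ^ (q.l π a v) := by rw [abs_of_nonneg dL0]; exact dL1
  have dX0 : 0 ≤ nmRep s v' x.z.X - nmRep s v x.z.X := sub_nonneg.2 (nm_gc_rep_mono h0 h1 hv _)
  have dX1 : nmRep s v' x.z.X - nmRep s v x.z.X ≤ s ^ v := by
    have g1 := nm_rep_le s v' x.z.X
    have g2 := nm_rep_lt s v x.z.X
    have g3 := nm_wd_le h0 h1 v
    linarith
  have dXa : |nmRep s v' x.z.X - nmRep s v x.z.X| ≤ s ^ v := by rw [abs_of_nonneg dX0]; exact dX1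
  have fin : ∀ (S u₁ u₂ r₁ r₂ c : ℝ), 0 < S → r₁ = r₂ → |u₁ - u₂| ≤ c * S → |(u₁ - r₁) / S - (u₂ - r₂) / S| ≤ c := by
    intro S u₁ u₂ r₁ r₂ c hS hr h
    rw [hr, ← sub_div, sub_sub_sub_cancel_right, abs_div, abs_of_pos hS, div_le_iff₀ hS]
    exact h
  unfold nmPhDist
  refine max_le (max_le (max_le ?_ ?_) (max_le ?_ ?_)) (max_le ?_ ?_)
  · show |(x.z.X - nmRep s v x.z.X) / s ^ v - (y.z.X - nmRep s v y.z.X) / s ^ v| ≤ 3 * E
    apply fin _ _ _ _ _ _ (hpos v) eX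
    rw [hsplit v v' (by ring)] at cX
    have := mul_pos (hpos v) hE0
    linarith
  · show |(x.z.Bt (x.ta s a) - nmRep s (a + v) (x.z.Bt (x.ta s a))) / s ^ (a + v)
      - (y.z.Bt (y.ta s a) - nmRep s (a + v) (y.z.Bt (y.ta s a))) / s ^ (a + v)| ≤ 3 * E
    apply fin _ _ _ _ _ _ (hpos _) eB
    rw [hsplit (a + v) (a + v') (by ring)] at cB
    have := mul_pos (hpos (a + v)) hE0
    linarith
  · cases quad
    · show |(0 : ℝ) - 0| ≤ 3 * E
      rw [sub_zero, abs_zero]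
      positivity
    · show |(x.Lraw s q a - x.La s π q a v) / s ^ (q.l π a v) - (y.Lraw s q a - y.La s π q a v) / s ^ (q.l π a v)| ≤ 3 * E
      apply fin _ _ _ _ _ _ (hpos _) eL
      have g1 : s ^ (q.l π a v') ≤ s ^ (q.l π a v) * E := by
        rw [← hsplit (q.l π a v) _ rfl]
        exact hanti _ _ (hl rfl)
      have := mul_pos (hpos (q.l π a v)) hE0
      linarith
  · show |((x.z.Yt (x.ta s a) - 2 * nmRep s v x.z.X * x.z.Bt (x.ta s a))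
        - nmRep s (a + 2 * v) (x.z.Yt (x.ta s a) - 2 * nmRep s v x.z.X * x.z.Bt (x.ta s a))) / s ^ (a + 2 * v)
      - ((y.z.Yt (y.ta s a) - 2 * nmRep s v y.z.X * y.z.Bt (y.ta s a))
        - nmRep s (a + 2 * v) (y.z.Yt (y.ta s a) - 2 * nmRep s v y.z.X * y.z.Bt (y.ta s a))) / s ^ (a + 2 * v)| ≤ 3 * E
    apply fin _ _ _ _ _ _ (hpos _) eY
    have idY : (x.z.Yt (x.ta s a) - 2 * nmRep s v x.z.X * x.z.Bt (x.ta s a))
        - (y.z.Yt (y.ta s a) - 2 * nmRep s v y.z.X * y.z.Bt (y.ta s a))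
        = ((x.z.Yt (x.ta s a) - 2 * nmRep s v' x.z.X * x.z.Bt (x.ta s a))
          - (y.z.Yt (y.ta s a) - 2 * nmRep s v' y.z.X * y.z.Bt (y.ta s a)))
          + 2 * ((nmRep s v' x.z.X - nmRep s v x.z.X) * (x.z.Bt (x.ta s a) - y.z.Bt (y.ta s a))) := by
      rw [← eX, ← eX']
      ring
    rw [idY]
    refine (abs_add_le _ _).trans ?_
    rw [abs_mul, abs_mul, abs_of_pos (by norm_num : (0 : ℝ) < 2)]
    have g1 : |nmRep s v' x.z.X - nmRep s v x.z.X| * |x.z.Bt (x.ta s a) - y.z.Bt (y.ta s a)| ≤ s ^ v * s ^ (a + v') :=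
      mul_le_mul dXa cB (abs_nonneg _) (hpos _).le
    have g2 : s ^ v * s ^ (a + v') = s ^ (a + 2 * v) * E := by
      rw [← Real.rpow_add h0, ← hsplit (a + 2 * v) _ rfl]
      congr 1
      ring
    have g3 : s ^ (a + 2 * v') ≤ s ^ (a + 2 * v) * E := by
      rw [← hsplit (a + 2 * v) _ rfl]
      exact hanti _ _ (by linarith)
    linarith
  · show |(x.Nres s π q a v - nmRep s (q.w π a v - q.g) (x.Nres s π q a v)) / s ^ (q.w π a v)
      - (y.Nres s π q a v - nmRep s (q.w π a v - q.g) (y.Nres s π q a v)) / s ^ (q.w π a v)| ≤ 3 * E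
    apply fin _ _ _ _ _ _ (hpos _) eN
    have idN : x.Nres s π q a v - y.Nres s π q a v = (x.Nres s π q a v' - y.Nres s π q a v')
        + (x.La s π q a v' - x.La s π q a v) * (x.z.X - y.z.X) := by
      unfold NmRaw.Nres
      rw [← eL, ← eL']
      ring
    rw [idN]
    refine (abs_add_le _ _).trans ?_
    rw [abs_mul]
    have g1 : |x.La s π q a v' - x.La s π q a v| * |x.z.X - y.z.X| ≤ s ^ (q.l π a v) * s ^ v' :=
      mul_le_mul dLa cX (abs_nonneg _) (hpos _).le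
    have g2 : s ^ (q.l π a v) * s ^ v' = s ^ (q.w π a v) * E := by
      rw [← Real.rpow_add h0, ← hsplit (q.w π a v) _ rfl, hw]
      congr 1
      ring
    have g3 : s ^ (q.w π a v' - q.g) ≤ s ^ (q.w π a v) * E := by
      rw [← hsplit (q.w π a v) _ rfl]
      exact hanti _ _ (by rw [hg, hw, hw']; linarith)
    have := mul_pos (hpos (q.w π a v)) hE0
    linarith
  · show |(x.Dres s π q a v - nmRep s (a + q.w π a v - q.g) (x.Dres s π q a v)) / s ^ (a + q.w π a v)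
      - (y.Dres s π q a v - nmRep s (a + q.w π a v - q.g) (y.Dres s π q a v)) / s ^ (a + q.w π a v)| ≤ 3 * E
    apply fin _ _ _ _ _ _ (hpos _) eD
    have idD : x.Dres s π q a v - y.Dres s π q a v = (x.Dres s π q a v' - y.Dres s π q a v')
        + (x.La s π q a v' - x.La s π q a v) * (x.z.Bt (x.ta s a) - y.z.Bt (y.ta s a)) := by
      unfold NmRaw.Dres
      rw [← eL, ← eL']
      ring
    rw [idD]
    refine (abs_add_le _ _).trans ?_
    rw [abs_mul]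
    have g1 : |x.La s π q a v' - x.La s π q a v| * |x.z.Bt (x.ta s a) - y.z.Bt (y.ta s a)| ≤ s ^ (q.l π a v) * s ^ (a + v') :=
      mul_le_mul dLa cB (abs_nonneg _) (hpos _).le
    have g2 : s ^ (q.l π a v) * s ^ (a + v') = s ^ (a + q.w π a v) * E := by
      rw [← Real.rpow_add h0, ← hsplit (a + q.w π a v) _ rfl, hw]
      congr 1
      ring
    have g3 : s ^ (a + q.w π a v' - q.g) ≤ s ^ (a + q.w π a v) * E := by
      rw [← hsplit (a + q.w π a v) _ rfl]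
      exact hanti _ _ (by rw [hg, hw, hw']; linarith)
    have := mul_pos (hpos (a + q.w π a v)) hE0
    linarith

/-! ## fibre coordinates -/

/-- the five fibre coordinates -/
def nmFib (quad : Bool) (f : ItPh) (μ : ItMk) : Fin 5 → ℝ :=
  ![f.B + μ.th * f.X, f.Y + μ.th * f.X ^ 2, f.D + μ.th * f.N, if quad then f.P - 2 * μ.r * f.X else 0,
    if quad then f.N - f.P * f.X + μ.r * f.X ^ 2 else f.N - μ.r * f.X]

/-- the shape of `itQ` -/
def nmFibQ (quad : Bool) (z : Fin 5 → ℤ) : (ℤ × ℤ × ℤ) × (ℤ × ℤ) := ((z 0, z 1, z 2), (if quad then z 3 else 0, z 4))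

theorem nm_gq_itQ (quad : Bool) (δ R : ℝ) (f : ItPh) (μ : ItMk) :
    itQ quad δ R f μ = nmFibQ quad (fun j => tcell δ R (nmFib quad f μ j)) := by
  cases quad <;> simp [itQ, nmFibQ, nmFib]

theorem nm_gq_lip_nrm (f : ItPh) (A : ℝ) (h : f.nrm ≤ A) : |f.X| ≤ A ∧ |f.B| ≤ A ∧ |f.P| ≤ A ∧ |f.Y| ≤ A ∧ |f.N| ≤ A ∧ |f.D| ≤ A := by
  unfold ItPh.nrm at h
  simp only [max_le_iff] at h
  tauto

theorem nm_gq_lip_dist (f g : ItPh) (ε : ℝ) (h : nmPhDist f g ≤ ε) :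
    |f.X - g.X| ≤ ε ∧ |f.B - g.B| ≤ ε ∧ |f.P - g.P| ≤ ε ∧ |f.Y - g.Y| ≤ ε ∧ |f.N - g.N| ≤ ε ∧ |f.D - g.D| ≤ ε := by
  unfold nmPhDist at h
  simp only [max_le_iff] at h
  tauto

theorem nm_gq_lip_mul {a a' b b' A B ε ε' : ℝ} (ha : |a| ≤ A) (hb' : |b'| ≤ B) (hab : |a - a'| ≤ ε) (hbb : |b - b'| ≤ ε') :
    |a * b - a' * b'| ≤ A * ε' + ε * B := by
  have e : a * b - a' * b' = a * (b - b') + (a - a') * b' := by ring
  rw [e]
  refine (abs_add_le _ _).trans ?_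
  rw [abs_mul, abs_mul]
  exact add_le_add (mul_le_mul ha hbb (abs_nonneg _) ((abs_nonneg _).trans ha))
    (mul_le_mul hab hb' (abs_nonneg _) ((abs_nonneg _).trans hab))

/-- LEAF L-256-NM-GRD-Q -/
theorem nm_gq_lip (quad : Bool) (f f' : ItPh) (μ μ' : ItMk) (A ε : ℝ) (hA : 1 ≤ A) (hf : f.nrm ≤ A) (hf' : f'.nrm ≤ A)
    (hμ : |μ.th| ≤ A ∧ |μ.r| ≤ A) (hd : nmPhDist f f' ≤ ε) (hm : |μ.th - μ'.th| ≤ ε ∧ |μ.r - μ'.r| ≤ ε) :
    ∀ j, |nmFib quad f μ j - nmFib quad f' μ' j| ≤ 6 * A ^ 2 * ε := by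
  obtain ⟨fX, fB, fP, fY, fN, fD⟩ := nm_gq_lip_nrm f A hf
  obtain ⟨gX, gB, gP, gY, gN, gD⟩ := nm_gq_lip_nrm f' A hf'
  obtain ⟨dX, dB, dP, dY, dN, dD⟩ := nm_gq_lip_dist f f' ε hd
  obtain ⟨mt, mr⟩ := hμ
  obtain ⟨et, er⟩ := hm
  have hε : 0 ≤ ε := (abs_nonneg _).trans dX
  have hA0 : 0 ≤ A := by linarith
  have k1 : ε ≤ A ^ 2 * ε := le_mul_of_one_le_left hε (by nlinarith)
  have k2 : A * ε ≤ A ^ 2 * ε := mul_le_mul_of_nonneg_right (by nlinarith) hε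
  have sq : |f.X ^ 2 - f'.X ^ 2| ≤ A * ε + ε * A := by
    have := nm_gq_lip_mul fX gX dX dX
    rwa [← pow_two, ← pow_two] at this
  have gX2 : |f'.X ^ 2| ≤ A ^ 2 := by
    rw [abs_pow]
    exact pow_le_pow_left₀ (abs_nonneg _) gX 2
  have p0 := abs_le.1 (nm_gq_lip_mul mt gX et dX)
  have p1 := abs_le.1 (nm_gq_lip_mul mt gX2 et sq)
  have p2 := abs_le.1 (nm_gq_lip_mul mt gN et dN)
  have p3 := abs_le.1 (nm_gq_lip_mul mr gX er dX)
  have p4 := abs_le.1 (nm_gq_lip_mul fP gX dP dX)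
  have p5 := abs_le.1 (nm_gq_lip_mul mr gX2 er sq)
  have qB := abs_le.1 dB
  have qY := abs_le.1 dY
  have qD := abs_le.1 dD
  have qP := abs_le.1 dP
  have qN := abs_le.1 dN
  have h60 : 0 ≤ 6 * A ^ 2 * ε := by positivity
  intro j
  cases quad
  · fin_cases j
    · show |(f.B + μ.th * f.X) - (f'.B + μ'.th * f'.X)| ≤ _
      rw [abs_le]
      constructor <;> linarith [p0.1, p0.2, qB.1, qB.2]
    · show |(f.Y + μ.th * f.X ^ 2) - (f'.Y + μ'.th * f'.X ^ 2)| ≤ _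
      rw [abs_le]
      constructor <;> linarith [p1.1, p1.2, qY.1, qY.2]
    · show |(f.D + μ.th * f.N) - (f'.D + μ'.th * f'.N)| ≤ _
      rw [abs_le]
      constructor <;> linarith [p2.1, p2.2, qD.1, qD.2]
    · show |(0 : ℝ) - 0| ≤ _
      simpa using h60
    · show |(f.N - μ.r * f.X) - (f'.N - μ'.r * f'.X)| ≤ _
      rw [abs_le]
      constructor <;> linarith [p3.1, p3.2, qN.1, qN.2]
  · fin_cases j
    · show |(f.B + μ.th * f.X) - (f'.B + μ'.th * f'.X)| ≤ _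
      rw [abs_le]
      constructor <;> linarith [p0.1, p0.2, qB.1, qB.2]
    · show |(f.Y + μ.th * f.X ^ 2) - (f'.Y + μ'.th * f'.X ^ 2)| ≤ _
      rw [abs_le]
      constructor <;> linarith [p1.1, p1.2, qY.1, qY.2]
    · show |(f.D + μ.th * f.N) - (f'.D + μ'.th * f'.N)| ≤ _
      rw [abs_le]
      constructor <;> linarith [p2.1, p2.2, qD.1, qD.2]
    · show |(f.P - 2 * μ.r * f.X) - (f'.P - 2 * μ'.r * f'.X)| ≤ _
      rw [abs_le]
      constructor <;> linarith [p3.1, p3.2, qP.1, qP.2]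
    · show |(f.N - f.P * f.X + μ.r * f.X ^ 2) - (f'.N - f'.P * f'.X + μ'.r * f'.X ^ 2)| ≤ _
      rw [abs_le]
      constructor <;> linarith [p4.1, p4.2, p5.1, p5.2, qN.1, qN.2]

/-- what a display reads -/
def nmRd (quad : Bool) (d : ItDsp) : Fin 5 → ℝ :=
  ![d.W, d.V, if quad then d.pos + d.L * d.W + d.R * d.V - d.b * d.W ^ 2 else d.pos + d.L * d.W,
    if quad then d.L - 2 * d.b * d.W else 0, if quad then d.vel + d.b * d.V else d.vel]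

/-! ## X10 at one raw datum: the display reads the fibre coordinates of the COMMON phase `F` and the STORED mark `μs` -/

/-- entries of the distance of two phases -/
theorem nm_gr_dist (f g : ItPh) {ε : ℝ} (h : nmPhDist f g ≤ ε) :
    |f.X - g.X| ≤ ε ∧ |f.B - g.B| ≤ ε ∧ |f.P - g.P| ≤ ε ∧ |f.Y - g.Y| ≤ ε ∧ |f.N - g.N| ≤ ε ∧ |f.D - g.D| ≤ ε := by
  have e : nmPhDist f g = max (max (max |f.X - g.X| |f.B - g.B|) (max |f.P - g.P| |f.Y - g.Y|)) (max |f.N - g.N| |f.D - g.D|) := rfl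
  rw [e] at h
  simp only [max_le_iff] at h
  obtain ⟨⟨⟨h1, h2⟩, h3, h4⟩, h5, h6⟩ := h
  exact ⟨h1, h2, h3, h4, h5, h6⟩

/-- a phase close to a phase of the unit cube -/
theorem nm_gr_nrm (f F : ItPh) {ε : ℝ} (hF : F.nrm ≤ 1) (h : nmPhDist f F ≤ ε) : f.nrm ≤ 1 + ε := by
  obtain ⟨d1, d2, d3, d4, d5, d6⟩ := nm_gr_dist f F h
  obtain ⟨n1, n2, n3, n4, n5, n6⟩ := lay_rd_nrm F hF
  have key : ∀ u w : ℝ, |u - w| ≤ ε → |w| ≤ 1 → |u| ≤ 1 + ε := by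
    intro u w h1 h2
    have : u = w + (u - w) := by ring
    rw [this]
    exact (abs_add_le _ _).trans (by linarith)
  have e : f.nrm = max (max (max |f.X| |f.B|) (max |f.P| |f.Y|)) (max |f.N| |f.D|) := rfl
  rw [e]
  exact max_le (max_le (max_le (key _ _ d1 n1) (key _ _ d2 n2)) (max_le (key _ _ d3 n3) (key _ _ d4 n4)))
    (max_le (key _ _ d5 n5) (key _ _ d6 n6))

/-- triangle inequality in the form used below -/
theorem nm_gr_tri {u w z A B C : ℝ} (h1 : |w - u| ≤ A) (h2 : |z - w| ≤ B) (h : A + B ≤ C) : |u - z| ≤ C := by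
  have : u - z = -(w - u) - (z - w) := by ring
  rw [this]
  refine (abs_sub _ _).trans ?_
  rw [abs_neg]
  linarith

/-- the quadratic read, abstract form -/
theorem nm_gr_quad_abs (f F : ItPh) (μ μs : ItMk) (d : ItDsp) (ε : ℝ) (hε : 0 < ε) (h6 : 100 * ε ≤ 1) (hF : F.nrm ≤ 1)
    (hcl : nmPhDist f F ≤ ε) (hμ : |μ.th - μs.th| ≤ ε ∧ |μ.r - μs.r| ≤ ε) (m1 : |μ.th| ≤ 2) (m2 : |μ.r| ≤ 3) (m3 : |μ.k| ≤ 1)
    (b1 : |d.th - μ.th| ≤ 2 * ε) (b2 : |d.W - (f.B + d.th * f.X)| ≤ ε)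
    (b3 : |d.V - (f.Y + d.th * f.X ^ 2)| ≤ (3 + 2 * |f.X|) * ε)
    (b4 : |d.R - μ.r| ≤ 3 * ε) (b5 : |d.b - μ.k| ≤ ε)
    (b6 : |f.P - d.L - 2 * d.R * f.X + 2 * d.b * (f.B + d.th * f.X)| ≤ ε)
    (b7 : |d.vel - (f.N - d.L * f.X - d.R * f.X ^ 2 - d.b * ((f.Y + d.th * f.X ^ 2) - 2 * f.X * (f.B + d.th * f.X)))| ≤ ε)
    (b8 : |d.pos - (f.D + d.th * f.N - d.L * (f.B + d.th * f.X) - d.R * (f.Y + d.th * f.X ^ 2) + d.b * (f.B + d.th * f.X) ^ 2)| ≤ ε) :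
    ∀ j, |nmFib true F μs j - nmRd true d j| ≤ 240000 * ε := by
  have hnr : f.nrm ≤ 1 + ε := nm_gr_nrm _ F hF hcl
  obtain ⟨nX, nB, -, nY, nN, nD⟩ := lay_rd_nrm _ hnr
  have c3 : |d.V - (f.Y + d.th * f.X ^ 2)| ≤ 7 * ε := by
    refine b3.trans ?_
    have : (3 + 2 * |f.X|) * ε ≤ (3 + 2 * (1 + ε)) * ε := mul_le_mul_of_nonneg_right (by linarith) hε.le
    nlinarith
  obtain ⟨r1, r2, r3, r4, r5⟩ := lay_read_quad f μ d 3 (7 * ε) (by norm_num) (by linarith) (by linarith) (by linarith)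
    ⟨by linarith, m2, by linarith⟩ (by linarith) (by linarith) c3 (by linarith) (by linarith) (by linarith) (by linarith) (by linarith)
  have lip := nm_gq_lip true f F μ μs 3 ε (by norm_num) (by linarith) (by linarith) ⟨by linarith, m2⟩ hcl hμ
  have hnum : 6 * (3 : ℝ) ^ 2 * ε + 20 * (1 + 3) ^ 3 * (7 * ε) ≤ 240000 * ε := by nlinarith
  intro j
  fin_cases j
  · exact nm_gr_tri (lip 0) r1 hnum
  · exact nm_gr_tri (lip 1) r2 hnum
  · exact nm_gr_tri (lip 2) r5 hnum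
  · exact nm_gr_tri (lip 3) r3 hnum
  · exact nm_gr_tri (lip 4) r4 hnum

/-- **X10, quadratic branch, pointwise.**   `f` = actual phase in the frame `n`, `μ` = exact mark, `d` = display.
(1) `f.nrm ≤ 2` (`hF`, `hcl`), `|μ| ≤ 3` (`nm_gd_mark_bd`);  (2) the eight hypotheses of `lay_read_quad f μ d 3 (7 ε)`: `nm_gd_th`, `nm_gd_base`, `nm_gd_quad`, `nm_gd_der`, `nm_gd_vel`, `nm_gd_pos` with `l' - l = w' - w = bs (a' - a)` (`nm_w_eq`);
(3) `nm_gq_lip` with `A = 3` from `(f, μ)` to `(F, μs)`.      LEAF L-256-NM-GRD-RQ -/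
theorem nm_gr_pt_q {s : ℝ} (h0 : 0 < s) (h1 : s < 1) {π : SfPar} {q : NmQ} (hq : q.Ok π) (hg : q.g = 0) {a v a' : ℝ} (ha : a ≤ a') (x : NmRaw) (n : NmNm)
    (hn : x.Fr s q a n) (hl : q.l π a v = q.ds.b a + v) (hl' : q.l π a' v = q.ds.b a' + v) (hc : q.ds.cut ≠ NmCut.none)
    (hT : |x.Te - x.T| ≤ s ^ a') (F : ItPh) (μs : ItMk) (ε : ℝ) (hF : F.nrm ≤ 1) (hcl : nmPhDist (x.phase s π q a v true n) F ≤ ε)
    (hμ : |(x.mark s π q a true).th - μs.th| ≤ ε ∧ |(x.mark s π q a true).r - μs.r| ≤ ε)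
    (h2 : s ^ (a' - a) ≤ ε) (h3 : s ^ (q.ds.bs * (a' - a)) ≤ ε) (h4 : q.ds.cut = NmCut.slope → s ^ ((q.ds.bs - 1) * (a' - a)) ≤ ε)
    (h6 : 100 * ε ≤ 1) :
    ∀ j, |nmFib true F μs j - nmRd true (nmDsp s π q a v a' (x.name s π q a' v) n) j| ≤ 240000 * ε := by
  have hε : 0 < ε := lt_of_lt_of_le (Real.rpow_pos_of_pos h0 _) h2
  have hTa : |x.Te - x.T| ≤ s ^ a := hT.trans (Real.rpow_le_rpow_of_exponent_ge h0 h1.le ha)
  obtain ⟨m1, m2, m3⟩ := nm_gd_mark_bd h0 h1 π q a x true (fun _ => hc) hTa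
  have b1 := nm_gd_th h0 h1 hq ha (v := v) x n hn true hT
  obtain ⟨b2, b3⟩ := nm_gd_base h0 h1 π q a v a' x n
  have b6 := nm_gd_der h0 h1 π q a v a' x n
  have b7 := nm_gd_vel h0 h1 π q a v a' x n hg
  have b8 := nm_gd_pos h0 h1 π q a v a' x n hg
  obtain ⟨l1, l2, l3⟩ := nm_gd_quad h0 h1 hq ha (v := v) x n hn hl hc hT
  have el : q.l π a' v - q.l π a v = q.ds.bs * (a' - a) := by
    rw [hl, hl']
    show (q.ds.b0 + q.ds.bs * (a' - q.ds.De) + v) - (q.ds.b0 + q.ds.bs * (a - q.ds.De) + v) = _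
    ring
  have ew : q.w π a' v - q.w π a v = q.ds.bs * (a' - a) := by
    rw [nm_w_eq, nm_w_eq, ← el]; ring
  rw [el] at b6
  rw [ew] at b7
  rw [ew, Real.rpow_add h0] at b8
  have c8 : s ^ (a' - a) * s ^ (q.ds.bs * (a' - a)) ≤ ε := by
    have : s ^ (a' - a) * s ^ (q.ds.bs * (a' - a)) ≤ ε * ε :=
      mul_le_mul h2 h3 (Real.rpow_pos_of_pos h0 _).le hε.le
    nlinarith
  have b5 : |(nmDsp s π q a v a' (x.name s π q a' v) n).b - (x.mark s π q a true).k| ≤ ε := by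
    by_cases hs : q.ds.cut = NmCut.slope
    · exact (l2 hs).trans (h4 hs)
    · obtain ⟨z1, z2⟩ := l3 hs
      rw [z1, z2, sub_zero, abs_zero]
      exact hε.le
  exact nm_gr_quad_abs (x.phase s π q a v true n) F _ μs _ ε hε h6 hF hcl hμ m1 m2 m3 (by linarith) (b2.trans h2)
    (b3.trans (mul_le_mul_of_nonneg_left h2 (by positivity))) (by linarith) b5 (b6.trans h3) (b7.trans h3) (b8.trans c8)

/-- the linear read, abstract form -/
theorem nm_gr_lin_abs (f F : ItPh) (μ μs : ItMk) (d : ItDsp) (ε : ℝ) (hε : 0 < ε) (h6 : 100 * ε ≤ 1) (hF : F.nrm ≤ 1)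
    (hcl : nmPhDist f F ≤ ε) (hμ : |μ.th - μs.th| ≤ ε ∧ |μ.r - μs.r| ≤ ε) (m1 : |μ.th| ≤ 2) (m2 : |μ.r| ≤ 3) (m3 : |μ.k| ≤ 1)
    (b1 : |d.th - μ.th| ≤ 2 * ε) (b2 : |d.W - (f.B + d.th * f.X)| ≤ ε)
    (b3 : |d.V - (f.Y + d.th * f.X ^ 2)| ≤ (3 + 2 * |f.X|) * ε)
    (b4 : |μ.r - d.L - 2 * d.R * f.X + 2 * d.b * (f.B + d.th * f.X)| ≤ ε) (hR : |d.R| ≤ 3 * ε) (hb : |d.b| ≤ 2 * ε)
    (b7 : |d.vel - (f.N - d.L * f.X - d.R * f.X ^ 2 - d.b * ((f.Y + d.th * f.X ^ 2) - 2 * f.X * (f.B + d.th * f.X)))| ≤ ε)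
    (b8 : |d.pos - (f.D + d.th * f.N - d.L * (f.B + d.th * f.X) - d.R * (f.Y + d.th * f.X ^ 2) + d.b * (f.B + d.th * f.X) ^ 2)| ≤ ε) :
    (∀ j, |nmFib false F μs j - nmRd false d j| ≤ 240000 * ε) ∧ |μ.r - d.L| ≤ 45 * ε := by
  have hnr : f.nrm ≤ 1 + ε := nm_gr_nrm _ F hF hcl
  obtain ⟨nX, nB, -, nY, nN, nD⟩ := lay_rd_nrm _ hnr
  have hth : |d.th| ≤ 2 + 2 * ε := by
    have : d.th = μ.th + (d.th - μ.th) := by ring
    rw [this]
    exact (abs_add_le _ _).trans (by linarith)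
  have hW0 : |f.B + d.th * f.X| ≤ 7 := by
    refine (lay_rd_add nB (lay_rd_mul hth nX)).trans ?_
    nlinarith
  have c4 : |μ.r - d.L| ≤ 45 * ε := by
    have e : μ.r - d.L = (μ.r - d.L - 2 * d.R * f.X + 2 * d.b * (f.B + d.th * f.X)) + 2 * (d.R * f.X) - 2 * (d.b * (f.B + d.th * f.X)) := by ring
    have p1 := lay_rd_mul hR nX
    have p2 := lay_rd_mul hb hW0
    have q1 : 3 * ε * (1 + ε) ≤ 4 * ε := by nlinarith
    rw [e]
    rw [abs_le] at b4 p1 p2 ⊢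
    constructor <;> linarith [b4.1, b4.2, p1.1, p1.2, p2.1, p2.2]
  refine ⟨?_, c4⟩
  have c3 : |d.V - (f.Y + d.th * f.X ^ 2)| ≤ 45 * ε := by
    refine b3.trans ?_
    have : (3 + 2 * |f.X|) * ε ≤ (3 + 2 * (1 + ε)) * ε := mul_le_mul_of_nonneg_right (by linarith) hε.le
    nlinarith
  obtain ⟨r1, r2, r3, r4⟩ := lay_read_lin f μ d 3 (45 * ε) (by norm_num) (by linarith) (by linarith) (by linarith)
    ⟨by linarith, m2, by linarith⟩ (by linarith) (by linarith) c3 c4 (by linarith) (by linarith) (by linarith) (by linarith)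
  have lip := nm_gq_lip false f F μ μs 3 ε (by norm_num) (by linarith) (by linarith) ⟨by linarith, m2⟩ hcl hμ
  have hnum : 6 * (3 : ℝ) ^ 2 * ε + 20 * (1 + 3) ^ 4 * (45 * ε) ≤ 240000 * ε := by nlinarith
  intro j
  fin_cases j
  · exact nm_gr_tri (lip 0) r1 hnum
  · exact nm_gr_tri (lip 1) r2 hnum
  · exact nm_gr_tri (lip 2) r4 hnum
  · show |(0 : ℝ) - 0| ≤ _
    simp only [sub_zero, abs_zero]
    positivity
  · exact nm_gr_tri (lip 4) r3 hnum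

/-- **X10, linear branch, pointwise.**   `|μ.r - d.L| ≤ s^(l'-l) + 2 |d.R| |f.X| + 2 |d.b| |f.B + d.th f.X| ≤ 45 ε` (`nm_gd_der`, `nm_gd_lin`); then `lay_read_lin f μ d 3 (45 ε)` and `nm_gq_lip`.      LEAF L-256-NM-GRD-RL -/
theorem nm_gr_pt_l {s : ℝ} (h0 : 0 < s) (h1 : s < 1) {π : SfPar} {q : NmQ} (hq : q.Ok π) (hg : q.g = 0) {a v a' : ℝ} (ha : a ≤ a') (x : NmRaw) (n : NmNm)
    (hn : x.Fr s q a n) (hl : q.l π a v = π.b1 a) (hl' : q.l π a' v = π.b1 a') (hL : n.L = nmCell s (π.b1 a) (x.Lraw s q a))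
    (hT : |x.Te - x.T| ≤ s ^ a') (F : ItPh) (μs : ItMk) (ε : ℝ) (hF : F.nrm ≤ 1) (hcl : nmPhDist (x.phase s π q a v false n) F ≤ ε)
    (hμ : |(x.mark s π q a false).th - μs.th| ≤ ε ∧ |(x.mark s π q a false).r - μs.r| ≤ ε)
    (h2 : s ^ (a' - a) ≤ ε) (h3 : s ^ ((π.q - π.J) * (a' - a)) ≤ ε) (h5 : (⟨s, π, q, a, v, a', v⟩ : NmG).cs * s ^ (v - q.l π a v) ≤ ε)
    (h6 : 100 * ε ≤ 1) :
    (∀ j, |nmFib false F μs j - nmRd false (nmDsp s π q a v a' (x.name s π q a' v) n) j| ≤ 240000 * ε) ∧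
      |(x.mark s π q a false).r - (nmDsp s π q a v a' (x.name s π q a' v) n).L| ≤ 45 * ε := by
  have hε : 0 < ε := lt_of_lt_of_le (Real.rpow_pos_of_pos h0 _) h2
  have hTa : |x.Te - x.T| ≤ s ^ a := hT.trans (Real.rpow_le_rpow_of_exponent_ge h0 h1.le ha)
  obtain ⟨m1, m2, m3⟩ := nm_gd_mark_bd h0 h1 π q a x false (fun h => absurd h (by simp)) hTa
  have b1 := nm_gd_th h0 h1 hq ha (v := v) x n hn false hT
  obtain ⟨b2, b3⟩ := nm_gd_base h0 h1 π q a v a' x n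
  have b4 := nm_gd_der h0 h1 π q a v a' x n
  have b7 := nm_gd_vel h0 h1 π q a v a' x n hg
  have b8 := nm_gd_pos h0 h1 π q a v a' x n hg
  obtain ⟨l1, l2, l3⟩ := nm_gd_lin h0 h1 hq ha (v := v) x n hn hl hL
  have el : q.l π a' v - q.l π a v = (π.q - π.J) * (a' - a) := by
    rw [hl, hl']
    show (π.q - π.J) * (a' - 1) - (π.q - π.J) * (a - 1) = _
    ring
  have ew : q.w π a' v - q.w π a v = (π.q - π.J) * (a' - a) := by
    rw [nm_w_eq, nm_w_eq, ← el]; ring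
  rw [el] at b4
  rw [ew] at b7
  rw [ew, Real.rpow_add h0] at b8
  rw [← l1] at b4
  have c8 : s ^ (a' - a) * s ^ ((π.q - π.J) * (a' - a)) ≤ ε := by
    have : s ^ (a' - a) * s ^ ((π.q - π.J) * (a' - a)) ≤ ε * ε :=
      mul_le_mul h2 h3 (Real.rpow_pos_of_pos h0 _).le hε.le
    nlinarith
  exact nm_gr_lin_abs (x.phase s π q a v false n) F _ μs _ ε hε h6 hF hcl hμ m1 m2 m3 (by linarith) (b2.trans h2)
    (b3.trans (mul_le_mul_of_nonneg_left h2 (by positivity))) (b4.trans h3) (by linarith) (by linarith) (b7.trans h3) (b8.trans c8)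

theorem nm_gq_eqns_cite : True := by
  have := @nmFib.eq_1; have := @nmFibQ.eq_1; have := @nmRd.eq_1
  trivial

end

end Claimed.Agent.R256
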