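import Claimed.Agent.R256.Nm.Grd.Loc

/-!
# Row 256 (S0496), unit NM, block GRD-IN, file 4: THE LIST RELATIONS AT ONE ROOT OF A DOCUMENTED CONFIGURATION      (architect helper190; prefix `nm_gf_`)

`D : SfDoc`, `r : NmRt` a root, `δ = D.s ^ r.h`.   Observations of the final law `D.P 1`:  `D.nm π r.q a v` (actual names), `D.cs π r` (`C_*`), `D.fst π r (D.side ..)` (common phase `F`), `D.smk π r` (stored marks), `D.Xc` (angular cells).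
The representative of a charged row: `nm_gk_rpr`, `nm_gk_cst`, `nm_gk_fst`, `nm_gk_side` (Kit).   It depends only on `(q, σ, a)`: the SAME row at all widths.
* `nm_gf_time`     the endpoint time is `s^a`-close to the terminal time, all `a ≤ a1 < De` (only input from `SfDoc.Ok`: `clPath`, `base`, `hlen`)
* `nm_gf_bdF`, `nm_gf_fr`      `F` in the unit cube; the frame `C_*` carries the cuts of the row
* `nm_gf_wnest` (X1), `nm_gf_wphase` (X11), `nm_gf_ang1`, `nm_gf_ang2` (X7), `nm_gf_acap`, `nm_gf_qlist`, `nm_gf_read` (X10)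
-/

set_option autoImplicit false

namespace Claimed.Agent.R256

open Claimed.Agent.R255
open Claimed.Agent.R255.FLaw (pair)
open Classical

noncomputable section

/-- the absolute constant of the lists of X10 -/
def nmK1 : ℝ := (2000000 : ℝ) ^ 8

/-- **the endpoint time.**   `De = 1`: `Te = T` (`labAt 1 = lab 1`).   `De < 1` (strict family, classical): a charged row has an ancestor at the gate `i = D.gt De < 1` (`clPath`), `labAt` is the label of a connected row, `base`: `T_i ≤ T`, `T + ℓ_1 ≤ T_i + ℓ_i`,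
`ℓ_i ≤ s^(i - t) ≤ s^(De - 2t) ≤ s^a1`.      LEAF L-256-NM-GRD-T -/
theorem nm_gf_time (π : SfPar) (hπ : π.Valid) (C0 τ κ0 : ℝ) (q : NmQ) (hq : q.Fam π) (a1 : ℝ) (ha1 : a1 < q.ds.De) :
    ∃ t0 : ℝ, 0 < t0 ∧ ∀ D : SfDoc, D.Fine π C0 τ κ0 t0 → ∀ ω, (D.P 1).p ω ≠ 0 → ∀ a : ℝ, a ≤ a1 →
      |(D.raw π q.ds ω).Te - (D.raw π q.ds ω).T| ≤ D.s ^ a := by
  by_cases hDe : q.ds.De = 1
  · refine ⟨1, one_pos, ?_⟩
    intro D hD ω _ a _
    have hs := hD.ok.core.hs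
    show |(D.labAt q.ds.De ω).T - D.T 1 ω| ≤ D.s ^ a
    rw [hDe, nm_labAt_one]
    show |D.T 1 ω - D.T 1 ω| ≤ D.s ^ a
    rw [sub_self, abs_zero]
    exact (Real.rpow_pos_of_pos hs.1 _).le
  · -- strict family, classical
    have hfam : 0 < q.ds.De ∧ q.ds.De < 1 ∧ π.hyb = false := by
      obtain ⟨_, _, hfam⟩ := hq
      rcases hfam with ⟨_, _, hds, _⟩ | ⟨_, _, hds, _⟩ | ⟨_, _, _, De, hDe0, hDe1, hhD, hds⟩
      · exact absurd (by rw [hds]; rfl) hDe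
      · exact absurd (by rw [hds]; rfl) hDe
      · have e : q.ds.De = De := by rw [hds]; rfl
        rw [e] at hDe ⊢
        refine ⟨hDe0, lt_of_le_of_ne hDe1 hDe, ?_⟩
        cases hb : π.hyb with
        | false => rfl
        | true => exact absurd (hhD hb) hDe
    obtain ⟨hDe0, hDe1, hcl⟩ := hfam
    refine ⟨min ((q.ds.De - a1) / 2) ((1 - q.ds.De) / 2), lt_min (by linarith) (by linarith), ?_⟩
    intro D hD ω hω a ha
    obtain ⟨t0, ht0⟩ : ∃ t0 : ℝ, t0 = min ((q.ds.De - a1) / 2) ((1 - q.ds.De) / 2) := ⟨_, rfl⟩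
    rw [← ht0] at hD
    have ht1 : t0 ≤ (q.ds.De - a1) / 2 := by rw [ht0]; exact min_le_left _ _
    have ht2 : t0 ≤ (1 - q.ds.De) / 2 := by rw [ht0]; exact min_le_right _ _
    have hC := hD.ok.core
    have hs := hC.hs
    have hG : D.gt q.ds.De ∈ D.G := nm_gt_mem D ⟨1, hC.gate.1⟩ q.ds.De
    have h5 := abs_le.1 (nm_gt_near hD hDe0.le hDe1.le)
    have hlt : D.gt q.ds.De < 1 := by linarith [h5.2]
    have hpos : 0 < (D.P 1).p ω := lt_of_le_of_ne ((D.P 1).nonneg ω) (Ne.symm hω)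
    obtain ⟨ρ, hρ, -⟩ := hC.clPath hcl _ hG 1 hC.gate.1 hlt ω hpos
    obtain ⟨b1, b2, -, -⟩ := hC.base _ hG 1 hC.gate.1 hlt ρ ω hρ
    rw [hC.hlen.1] at b2
    have h4 := (hC.hlen.2 _ hG).2
    have h6 : D.s ^ (D.gt q.ds.De - t0) ≤ D.s ^ a := nm_pow_anti hs.1 hs.2 (by linarith [h5.1])
    show |(D.labAt q.ds.De ω).T - D.T 1 ω| ≤ D.s ^ a
    rw [nm_labAt_eq hC hcl hDe hlt hρ]
    show |D.T (D.gt q.ds.De) ρ - D.T 1 ω| ≤ D.s ^ a
    rw [abs_le]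
    constructor <;> linarith [hs.1]

/-- the `X`-entry of `NmRep.close` -/
theorem nm_gf_ang_aux (D : SfDoc) (π : SfPar) (r : NmRt) (K0 e : ℝ) (hrep : NmRep D π r K0 e) (ω : D.Row 1) (hω : (D.P 1).p ω ≠ 0) :
    |((D.ray 1 ω).X - ((D.cs π r ω).X : ℝ) / (2 : ℝ) ^ nmLev D.s r.v) / D.s ^ r.v - (D.fst π r (D.side π r.q r.σ r.a ω)).X| ≤ D.s ^ e := by
  have h := hrep.close ω hω
  unfold nmPhDist at h
  exact le_trans (le_trans (le_max_left _ _) (le_trans (le_max_left _ _) (le_max_left _ _))) h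

theorem nm_gf_ang_real {X X' xc Sv F F' ε : ℝ} (hSv : 0 < Sv) (h1 : |(X - xc) / Sv - F| ≤ ε) (h2 : |(X' - xc) / Sv - F'| ≤ ε) :
    |F - F'| ≤ |X - X'| / Sv + 2 * ε ∧ |X - X'| ≤ Sv * (|F - F'| + 2 * ε) := by
  obtain ⟨u, hu⟩ : ∃ u, u = (X - xc) / Sv := ⟨_, rfl⟩
  obtain ⟨u', hu'⟩ : ∃ u', u' = (X' - xc) / Sv := ⟨_, rfl⟩
  rw [← hu] at h1
  rw [← hu'] at h2
  have e1 : |X - X'| / Sv = |u - u'| := by
    rw [hu, hu', ← sub_div, abs_div, abs_of_pos hSv]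
    congr 2
    ring
  have e2 : |X - X'| = Sv * |u - u'| := by
    rw [← e1]
    field_simp
  have a1 := abs_le.1 h1
  have a2 := abs_le.1 h2
  constructor
  · rw [e1]
    have b1 := le_abs_self (u - u')
    have b2 := neg_abs_le (u - u')
    rw [abs_le]
    constructor <;> linarith [a1.1, a1.2, a2.1, a2.2]
  · rw [e2]
    refine mul_le_mul_of_nonneg_left ?_ hSv.le
    have b1 := le_abs_self (F - F')
    have b2 := neg_abs_le (F - F')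
    rw [abs_le]
    constructor <;> linarith [a1.1, a1.2, a2.1, a2.2]

theorem nm_gf_ang_pow {s : ℝ} (h0 : 0 < s) (v p h : ℝ) : s ^ (v + p * h) = s ^ v * (s ^ h) ^ p := by
  rw [Real.rpow_add h0, ← Real.rpow_mul h0.le, mul_comm p h]

theorem nm_gf_ang1_aux (D : SfDoc) (π : SfPar) (r : NmRt) (hs : 0 < D.s ∧ D.s < 1)
    (K0 e : ℝ) (hrep : NmRep D π r K0 e) (hh : 0 < r.h) (p : ℝ) (hp : 0 ≤ p) (hpe : p * r.h ≤ e) :
    (D.P 1).NVal (fun _ => True) (fun ω => tcell (D.s ^ r.h) p (D.fst π r (D.side π r.q r.σ r.a ω)).X)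
      (pair (D.Xc (r.v + p * r.h)) (D.nm π r.q r.a r.v)) (K0 * 15) := by
  have hδ0 : 0 < D.s ^ r.h := Real.rpow_pos_of_pos hs.1 _
  have hδ1 : D.s ^ r.h < 1 := Real.rpow_lt_one hs.1.le hs.2 hh
  have hSv : 0 < D.s ^ r.v := Real.rpow_pos_of_pos hs.1 _
  have hpe' : D.s ^ e ≤ (D.s ^ r.h) ^ p := nm_gk_pow hs.1 hs.2 hpe
  have hδp1 : (D.s ^ r.h) ^ p ≤ 1 := Real.rpow_le_one hδ0.le hδ1.le hp
  refine nm_gk_comp (D.P 1) (by norm_num) (nm_gk_refine (D.P 1) hrep.rep2 (fun ω ω' h => (Prod.ext_iff.1 h).2)) ?_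
  have key := nm_gk_tvec (D.P 1) (pair (pair (D.Xc (r.v + p * r.h)) (D.nm π r.q r.a r.v)) (D.cs π r)) 1
    (fun ω _ => (D.fst π r (D.side π r.q r.σ r.a ω)).X) (D.s ^ r.h) 3 (fun _ => p) hδ0 hδ1 (by norm_num) (fun z => z 0)
    (fun ω => tcell (D.s ^ r.h) p (D.fst π r (D.side π r.q r.σ r.a ω)).X) (fun ω _ => rfl) ?_
  · exact nm_gk_mono (D.P 1) key (by norm_num)
  · intro ω ω' hω hω' hA _
    have h1 : D.Xc (r.v + p * r.h) ω = D.Xc (r.v + p * r.h) ω' := congrArg (fun z => z.1.1) hA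
    have h3 : D.cs π r ω = D.cs π r ω' := congrArg (fun z => z.2) hA
    have c1 := nm_gf_ang_aux D π r K0 e hrep ω hω
    have c2 := nm_gf_ang_aux D π r K0 e hrep ω' hω'
    rw [← h3] at c2
    have c3 := (nm_gf_ang_real hSv c1 c2).1
    have c4 : |(D.ray 1 ω).X - (D.ray 1 ω').X| ≤ D.s ^ (r.v + p * r.h) := nm_close_of_cell hs.1 hs.2 h1
    rw [nm_gf_ang_pow hs.1] at c4
    have c5 : |(D.ray 1 ω).X - (D.ray 1 ω').X| / D.s ^ r.v ≤ (D.s ^ r.h) ^ p := by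
      rw [div_le_iff₀ hSv]
      linarith
    rw [min_eq_right hδp1]
    linarith

theorem nm_gf_ang2_aux (D : SfDoc) (π : SfPar) (r : NmRt) (hs : 0 < D.s ∧ D.s < 1)
    (K0 e : ℝ) (hrep : NmRep D π r K0 e) (hh : 0 < r.h) (p : ℝ) (hp : 0 ≤ p) (hpe : p * r.h ≤ e) :
    (D.P 1).NVal (fun _ => True) (D.Xc (r.v + p * r.h))
      (pair (fun ω => tcell (D.s ^ r.h) p (D.fst π r (D.side π r.q r.σ r.a ω)).X) (D.cs π r)) 8 := by
  have hδ0 : 0 < D.s ^ r.h := Real.rpow_pos_of_pos hs.1 _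
  have hSv : 0 < D.s ^ r.v := Real.rpow_pos_of_pos hs.1 _
  have hpe' : D.s ^ e ≤ (D.s ^ r.h) ^ p := nm_gk_pow hs.1 hs.2 hpe
  have key := nm_gk_ncell (D.P 1) (pair (fun ω => tcell (D.s ^ r.h) p (D.fst π r (D.side π r.q r.σ r.a ω)).X) (D.cs π r))
    (fun ω => (D.ray 1 ω).X) D.s (r.v + p * r.h) (r.v + p * r.h) 3 hs.1 hs.2 (by norm_num) ?_
  · refine nm_gk_mono (D.P 1) key (le_of_eq ?_)
    rw [sub_self, neg_zero, Real.rpow_zero]
    norm_num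
  · intro ω ω' hω hω' hA
    have h1 : tcell (D.s ^ r.h) p (D.fst π r (D.side π r.q r.σ r.a ω)).X = tcell (D.s ^ r.h) p (D.fst π r (D.side π r.q r.σ r.a ω')).X :=
      congrArg (fun z => z.1) hA
    have h3 : D.cs π r ω = D.cs π r ω' := congrArg (fun z => z.2) hA
    have c1 := nm_gf_ang_aux D π r K0 e hrep ω hω
    have c2 := nm_gf_ang_aux D π r K0 e hrep ω' hω'
    rw [← h3] at c2
    have c3 := (nm_gf_ang_real hSv c1 c2).2
    have c4 := nm_gk_tclose hδ0 h1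
    rw [nm_gf_ang_pow hs.1]
    refine c3.trans ?_
    have : D.s ^ r.v * (|(D.fst π r (D.side π r.q r.σ r.a ω)).X - (D.fst π r (D.side π r.q r.σ r.a ω')).X| + 2 * D.s ^ e)
        ≤ D.s ^ r.v * (3 * (D.s ^ r.h) ^ p) := mul_le_mul_of_nonneg_left (by linarith) hSv.le
    linarith

theorem nm_gf_acap_aux (D : SfDoc) (π : SfPar) (r : NmRt) (hs : 0 < D.s ∧ D.s < 1) (K : ℝ) :
    (D.P 1).NVal (fun _ => True) (D.Xc (r.v + K * r.h)) (D.nm π r.q r.a r.v) (2 * (D.s ^ r.h) ^ (-K) + 2) := by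
  have key := nm_gk_ncell (D.P 1) (D.nm π r.q r.a r.v) (fun ω => (D.ray 1 ω).X) D.s (r.v + K * r.h) r.v 1 hs.1 hs.2 (by norm_num) ?_
  · refine nm_gk_mono (D.P 1) key (le_of_eq ?_)
    rw [← Real.rpow_mul hs.1.le]
    congr 3
    · ring
    · ring
  · intro ω ω' _ _ hA
    have h1 : nmCell D.s r.v (D.ray 1 ω).X = nmCell D.s r.v (D.ray 1 ω').X := congrArg (fun z : NmNm => z.X) hA
    rw [one_mul]
    exact nm_close_of_cell hs.1 hs.2 h1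

/-- a query of the family with a template other than the pure linear one has a curvature cut -/
theorem nm_gf_aux_read_cut {π : SfPar} {q : NmQ} (hq : q.Fam π) (htp : q.tp ≠ NmTp.plin) : q.ds.cut ≠ NmCut.none := by
  obtain ⟨-, -, h⟩ := hq
  rcases h with ⟨-, -, h3, -⟩ | ⟨-, -, -, h4⟩ | ⟨-, -, -, De, -, -, -, h3⟩
  · rw [h3]
    simp only [nmDsEq]
    split_ifs <;> simp
  · exact absurd h4 htp
  · rw [h3]; simp [nmDsStr]

/-- on a linear branch `l = b_1` -/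
theorem nm_gf_aux_read_lin {π : SfPar} {q : NmQ} {a v : ℝ}
    (h : q.tp = NmTp.plin ∨ (q.tp = NmTp.clip ∧ π.b1 a < q.ds.b a + v)) : q.l π a v = π.b1 a := by
  rcases h with h | ⟨h, h'⟩
  · unfold NmQ.l; rw [h]
  · unfold NmQ.l; rw [h]; exact min_eq_right h'.le

section root

variable (D : SfDoc) (π : SfPar) (r : NmRt) (hs : 0 < D.s ∧ D.s < 1)
include hs

/-- the common phase lies in the unit cube -/
theorem nm_gf_bdF (hg : r.q.g = 0) (ω : D.Row 1) (hω : (D.P 1).p ω ≠ 0) : (D.fst π r (D.side π r.q r.σ r.a ω)).nrm ≤ 1 := by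
  obtain ⟨ω', h1, -, -⟩ := nm_gk_rpr D π r.q r.σ r.a ω hω
  rw [nm_gk_fst D π r _ ω' h1]
  exact nm_go_own hs.1 hs.2 π r.q hg r.a r.v _ _

omit hs in
/-- the frame `C_*` carries the cuts of the row; on a linear branch (`l = b_1`) also `L` -/
theorem nm_gf_fr (ω : D.Row 1) (hω : (D.P 1).p ω ≠ 0) :
    (D.raw π r.q.ds ω).Fr D.s r.q r.a (D.cs π r ω) ∧
      (r.σ.lin = true → r.q.l π r.a r.v = π.b1 r.a → (D.cs π r ω).L = nmCell D.s (π.b1 r.a) ((D.raw π r.q.ds ω).Lraw D.s r.q r.a)) := by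
  obtain ⟨ω', h1, -, h3⟩ := nm_gk_rpr D π r.q r.σ r.a ω hω
  obtain ⟨-, g2, g3, g4, g5⟩ := nm_gk_side D π r.q r.σ r.a ω ω' h3
  have e : D.cs π r ω = D.nm π r.q r.a r.v ω' := nm_gk_cst D π r _ ω' h1
  rw [e]
  refine ⟨⟨g2, g3, g4⟩, fun hl hb => ?_⟩
  rw [← g5 hl]
  show nmCell D.s (r.q.l π r.a r.v) _ = _
  rw [hb]

/-- **X1 for the representative names** (`nm_refine_up`: the same representative at both widths) -/
theorem nm_gf_wnest (hq : r.q.Ok π) (v' : ℝ) (hv : r.v ≤ v') :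
    (D.P 1).NVal (fun _ => True) (D.cs π r) (D.cs π { r with v := v' }) nmK0 := by
  intro ω₀
  have hG : (⟨D.s, π, r.q, r.a, r.v, r.a, v'⟩ : NmG).Ok := ⟨hs.1, hs.2, hq, le_rfl, hv⟩
  obtain ⟨S, hS, hmem⟩ := nm_refine_up hG (D.cs π { r with v := v' } ω₀)
  refine ⟨S, hS, fun ω hω _ h => ?_⟩
  obtain ⟨ω', h1, -, -⟩ := nm_gk_rpr D π r.q r.σ r.a ω hω
  have e1 : D.cs π r ω = D.nm π r.q r.a r.v ω' := nm_gk_cst D π r _ ω' h1
  have e2 : D.cs π { r with v := v' } ω = D.nm π r.q r.a v' ω' := nm_gk_cst D π { r with v := v' } _ ω' h1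
  rw [e1]
  exact hmem _ (e2.symm.trans h)

/-- **X11**: the two representative names at the widths `v`, `v'` list the fine phase (`nm_gw_phase`, `nm_gk_tvec` with `m = 6`, `R = 3`).      LEAF L-256-NM-GRD-FW -/
theorem nm_gf_wphase (hq : r.q.Ok π) (hg : r.q.g = 0) (hh : 0 < r.h) (v' Kf : ℝ) (hKf : 0 ≤ Kf) (hv : Kf * r.h ≤ v' - r.v)
    (hl : r.σ.lin = false → r.q.l π r.a r.v + (v' - r.v) ≤ r.q.l π r.a v') :
    (D.P 1).NVal (fun _ => True) (fun ω => itF (D.s ^ r.h) Kf (D.fst π r (D.side π r.q r.σ r.a ω)))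
      (pair (D.cs π r) (D.cs π { r with v := v' })) (15 ^ 6) := by
  have hδ0 : 0 < D.s ^ r.h := Real.rpow_pos_of_pos hs.1 _
  have hδ1 : D.s ^ r.h < 1 := Real.rpow_lt_one hs.1.le hs.2 hh
  have hvv : 0 ≤ v' - r.v := (mul_nonneg hKf hh.le).trans hv
  have key := nm_gk_tvec (D.P 1) (pair (D.cs π r) (D.cs π { r with v := v' })) 6
    (fun ω => ![(D.fst π r (D.side π r.q r.σ r.a ω)).X, (D.fst π r (D.side π r.q r.σ r.a ω)).B, (D.fst π r (D.side π r.q r.σ r.a ω)).P,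
      (D.fst π r (D.side π r.q r.σ r.a ω)).Y, (D.fst π r (D.side π r.q r.σ r.a ω)).N, (D.fst π r (D.side π r.q r.σ r.a ω)).D])
    (D.s ^ r.h) 3 (fun _ => Kf) hδ0 hδ1 (by norm_num) (fun z => ((z 0, z 1, z 2), (z 3, z 4, z 5)))
    (fun ω => itF (D.s ^ r.h) Kf (D.fst π r (D.side π r.q r.σ r.a ω))) (fun ω _ => rfl) ?_
  · have e : ((4 : ℝ) * 3 + 3) ^ 6 = 15 ^ 6 := by norm_num
    rw [e] at key
    exact key
  · intro ω ω' hω hω' hA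
    obtain ⟨ω₁, a1, -, -⟩ := nm_gk_rpr D π r.q r.σ r.a ω hω
    obtain ⟨ω₂, b1, -, -⟩ := nm_gk_rpr D π r.q r.σ r.a ω' hω'
    have hA1 : D.cs π r ω = D.cs π r ω' := congrArg Prod.fst hA
    have hA2 : D.cs π { r with v := v' } ω = D.cs π { r with v := v' } ω' := congrArg Prod.snd hA
    have e1 : D.cs π r ω = D.nm π r.q r.a r.v ω₁ := nm_gk_cst D π r _ ω₁ a1
    have e2 : D.cs π { r with v := v' } ω = D.nm π r.q r.a v' ω₁ := nm_gk_cst D π { r with v := v' } _ ω₁ a1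
    have f1 : D.cs π r ω' = D.nm π r.q r.a r.v ω₂ := nm_gk_cst D π r _ ω₂ b1
    have f2 : D.cs π { r with v := v' } ω' = D.nm π r.q r.a v' ω₂ := nm_gk_cst D π { r with v := v' } _ ω₂ b1
    have hn : (D.raw π r.q.ds ω₁).name D.s π r.q r.a r.v = (D.raw π r.q.ds ω₂).name D.s π r.q r.a r.v := e1.symm.trans (hA1.trans f1)
    have hn' : (D.raw π r.q.ds ω₁).name D.s π r.q r.a v' = (D.raw π r.q.ds ω₂).name D.s π r.q r.a v' := e2.symm.trans (hA2.trans f2)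
    have hd := nm_gw_phase hs.1 hs.2 hq hg r.a r.v v' (by linarith) (!r.σ.lin) (fun h => hl (by simpa using h)) _ _ hn hn'
    have g1 := nm_gk_fst D π r _ ω₁ a1
    have g2 := nm_gk_fst D π r _ ω₂ b1
    have hd' : nmPhDist (D.fst π r (D.side π r.q r.σ r.a ω)) (D.fst π r (D.side π r.q r.σ r.a ω')) ≤ 3 * D.s ^ (v' - r.v) := by
      rw [g1, g2]
      exact hd
    have hm : D.s ^ (v' - r.v) ≤ min 1 ((D.s ^ r.h) ^ Kf) :=
      le_min (Real.rpow_le_one hs.1.le hs.2.le hvv) (nm_gk_pow hs.1 hs.2 hv)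
    have hd2 : nmPhDist (D.fst π r (D.side π r.q r.σ r.a ω)) (D.fst π r (D.side π r.q r.σ r.a ω')) ≤ 3 * min 1 ((D.s ^ r.h) ^ Kf) :=
      hd'.trans (mul_le_mul_of_nonneg_left hm (by norm_num))
    unfold nmPhDist at hd2
    simp only [max_le_iff] at hd2
    obtain ⟨⟨⟨c1, c2⟩, c3, c4⟩, c5, c6⟩ := hd2
    intro j
    fin_cases j
    · exact c1
    · exact c2
    · exact c3
    · exact c4
    · exact c5
    · exact c6

/-- **X7 for the angles, 1**: first list `C_*` (`rep2`), then, in the common frame, `|F.X - F.X'| ≤ |X - X'| / s^v + 2 s^e ≤ 3 δ^p`  (`nm_gk_comp`, `nm_gk_tvec` with `m = 1`).      LEAF L-256-NM-GRD-FA -/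
theorem nm_gf_ang1 (K0 e : ℝ) (hrep : NmRep D π r K0 e) (hh : 0 < r.h) (p : ℝ) (hp : 0 ≤ p) (hpe : p * r.h ≤ e) :
    (D.P 1).NVal (fun _ => True) (fun ω => tcell (D.s ^ r.h) p (D.fst π r (D.side π r.q r.σ r.a ω)).X)
      (pair (D.Xc (r.v + p * r.h)) (D.nm π r.q r.a r.v)) (K0 * 15) :=
  nm_gf_ang1_aux D π r hs K0 e hrep hh p hp hpe

/-- **X7 for the angles, 2**: `|X - X'| ≤ s^v (|F.X - F.X'| + 2 s^e) ≤ 3 s^(v + p h)`  (`nm_gk_tclose`, `nm_gk_ncell`).      LEAF L-256-NM-GRD-FA -/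
theorem nm_gf_ang2 (K0 e : ℝ) (hrep : NmRep D π r K0 e) (hh : 0 < r.h) (p : ℝ) (hp : 0 ≤ p) (hpe : p * r.h ≤ e) :
    (D.P 1).NVal (fun _ => True) (D.Xc (r.v + p * r.h))
      (pair (fun ω => tcell (D.s ^ r.h) p (D.fst π r (D.side π r.q r.σ r.a ω)).X) (D.cs π r)) 8 :=
  nm_gf_ang2_aux D π r hs K0 e hrep hh p hp hpe

/-- **capacity of the angular cell** (`nm_gk_ncell` with `R = 1`, `b' = v`).      LEAF L-256-NM-GRD-FA -/
theorem nm_gf_acap (K : ℝ) :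
    (D.P 1).NVal (fun _ => True) (D.Xc (r.v + K * r.h)) (D.nm π r.q r.a r.v) (2 * (D.s ^ r.h) ^ (-K) + 2) :=
  nm_gf_acap_aux D π r hs K

omit hs in
theorem nm_gf_qlist_aux (D : SfDoc) (π : SfPar) (r : NmRt) (hs : 0 < D.s ∧ D.s < 1)
    (hg : r.q.g = 0) (hh : 0 < r.h) (hB : 0 ≤ r.B) (hRm : 0 ≤ r.Rm) (Kf RQ : ℝ) (hKf : 0 ≤ Kf) (hRQ : RQ ≤ Kf) :
    (D.P 1).NVal (fun _ => True) (fun ω => itQ (!r.σ.lin) (D.s ^ r.h) RQ (D.fst π r (D.side π r.q r.σ r.a ω)) (D.smk π r ω))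
      (pair (fun ω => itF (D.s ^ r.h) Kf (D.fst π r (D.side π r.q r.σ r.a ω))) (D.smk π r)) ((24 * (r.B + 1) ^ 2 + 3) ^ 5) := by
  have hδ0 : 0 < D.s ^ r.h := Real.rpow_pos_of_pos hs.1 _
  have hδ1 : D.s ^ r.h < 1 := Real.rpow_lt_one hs.1.le hs.2 hh
  have hε : (D.s ^ r.h) ^ Kf ≤ min 1 ((D.s ^ r.h) ^ RQ) :=
    le_min (Real.rpow_le_one hδ0.le hδ1.le hKf) (Real.rpow_le_rpow_of_exponent_ge hδ0 hδ1.le hRQ)
  have hε0 : 0 ≤ min 1 ((D.s ^ r.h) ^ RQ) := le_trans (Real.rpow_pos_of_pos hδ0 _).le hε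
  have key := nm_gk_tvec (D.P 1) (pair (fun ω => itF (D.s ^ r.h) Kf (D.fst π r (D.side π r.q r.σ r.a ω))) (D.smk π r)) 5
    (fun ω => nmFib (!r.σ.lin) (D.fst π r (D.side π r.q r.σ r.a ω)) (D.smk π r ω)) (D.s ^ r.h) (6 * (r.B + 1) ^ 2) (fun _ => RQ) hδ0 hδ1 (by positivity)
    (nmFibQ (!r.σ.lin)) (fun ω => itQ (!r.σ.lin) (D.s ^ r.h) RQ (D.fst π r (D.side π r.q r.σ r.a ω)) (D.smk π r ω))
    (fun ω _ => nm_gq_itQ _ _ _ _ _) ?_
  · refine nm_gk_mono (D.P 1) key (le_of_eq ?_)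
    congr 1
    ring
  · intro ω ω' hω hω' hA
    have h1 : itF (D.s ^ r.h) Kf (D.fst π r (D.side π r.q r.σ r.a ω)) = itF (D.s ^ r.h) Kf (D.fst π r (D.side π r.q r.σ r.a ω')) :=
      congrArg (fun z => z.1) hA
    have h3 : D.smk π r ω = D.smk π r ω' := congrArg (fun z => z.2) hA
    simp only [itF, Prod.mk.injEq] at h1
    obtain ⟨⟨x1, x2, x3⟩, x4, x5, x6⟩ := h1
    have hd : nmPhDist (D.fst π r (D.side π r.q r.σ r.a ω)) (D.fst π r (D.side π r.q r.σ r.a ω')) ≤ min 1 ((D.s ^ r.h) ^ RQ) := by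
      refine le_trans ?_ hε
      unfold nmPhDist
      exact max_le (max_le (max_le (nm_gk_tclose hδ0 x1) (nm_gk_tclose hδ0 x2)) (max_le (nm_gk_tclose hδ0 x3) (nm_gk_tclose hδ0 x4)))
        (max_le (nm_gk_tclose hδ0 x5) (nm_gk_tclose hδ0 x6))
    have hb := nm_go_store_bd hδ0 hδ1 hRm hB ((D.raw π r.q.ds ω).mark D.s π r.q r.a (!r.σ.lin))
    have hA1 : (1 : ℝ) ≤ r.B + 1 := by linarith
    refine nm_gq_lip (!r.σ.lin) _ _ _ _ (r.B + 1) _ hA1 ((nm_gf_bdF D π r hs hg ω hω).trans hA1) ((nm_gf_bdF D π r hs hg ω' hω').trans hA1)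
      ⟨hb.1, hb.2.1⟩ hd ?_
    rw [← h3]
    simp only [sub_self, abs_zero]
    exact ⟨hε0, hε0⟩

/-- **the fine phase and the stored mark list the fibre read** (`nm_gk_tclose`, `nm_gq_lip` with `A = r.B + 1`, `nm_gq_itQ`, `nm_gk_tvec` with `m = 5`).      LEAF L-256-NM-GRD-FQ -/
theorem nm_gf_qlist (hg : r.q.g = 0) (hh : 0 < r.h) (hB : 0 ≤ r.B) (hRm : 0 ≤ r.Rm) (Kf RQ : ℝ) (hKf : 0 ≤ Kf) (hRQ : RQ ≤ Kf) :
    (D.P 1).NVal (fun _ => True) (fun ω => itQ (!r.σ.lin) (D.s ^ r.h) RQ (D.fst π r (D.side π r.q r.σ r.a ω)) (D.smk π r ω))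
      (pair (fun ω => itF (D.s ^ r.h) Kf (D.fst π r (D.side π r.q r.σ r.a ω))) (D.smk π r)) ((24 * (r.B + 1) ^ 2 + 3) ^ 5) :=
  nm_gf_qlist_aux D π r hs hg hh hB hRm Kf RQ hKf hRQ

/-- the pointwise content of X10 -/
theorem nm_gf_aux_read_pt (hπ : π.Valid) (Λ K0 e a' : ℝ) (hok : r.Ok π Λ) (hok' : NmRt.Ok { r with a := a' } π Λ) (hrep : NmRep D π r K0 e) (ha : r.a ≤ a')
    (hT : ∀ ω, (D.P 1).p ω ≠ 0 → |(D.raw π r.q.ds ω).Te - (D.raw π r.q.ds ω).T| ≤ D.s ^ a')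
    (hh : 0 < r.h) (hB : 3 ≤ r.B) (hRm : 0 ≤ r.Rm)
    (h1 : D.s ^ e ≤ (D.s ^ r.h) ^ r.Rm) (h2 : D.s ^ (a' - r.a) ≤ (D.s ^ r.h) ^ r.Rm) (h3 : D.s ^ (r.c π * (a' - r.a)) ≤ (D.s ^ r.h) ^ r.Rm)
    (h4 : r.q.ds.cut = NmCut.slope → D.s ^ ((r.q.ds.bs - 1) * (a' - r.a)) ≤ (D.s ^ r.h) ^ r.Rm)
    (h5 : r.σ.lin = true → (⟨D.s, π, r.q, r.a, r.v, a', r.v⟩ : NmG).cs * D.s ^ (r.v - r.q.l π r.a r.v) ≤ (D.s ^ r.h) ^ r.Rm)
    (h6 : 100 * (D.s ^ r.h) ^ r.Rm ≤ 1) (ω : D.Row 1) (hω : (D.P 1).p ω ≠ 0) :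
    (∀ j, |nmFib (!r.σ.lin) (D.fst π r (D.side π r.q r.σ r.a ω)) (D.smk π r ω) j
        - nmRd (!r.σ.lin) (nmDsp D.s π r.q r.a r.v a' (D.nm π r.q a' r.v ω) (D.cs π r ω)) j| ≤ 240000 * (D.s ^ r.h) ^ r.Rm) ∧
    D.smk π r ω = ⟨trep (D.s ^ r.h) r.Rm ((D.raw π r.q.ds ω).mark D.s π r.q r.a (!r.σ.lin)).th,
      trep (D.s ^ r.h) r.Rm ((D.raw π r.q.ds ω).mark D.s π r.q r.a (!r.σ.lin)).r,
      trep (D.s ^ r.h) r.Rm ((D.raw π r.q.ds ω).mark D.s π r.q r.a (!r.σ.lin)).k⟩ ∧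
    |(nmDsp D.s π r.q r.a r.v a' (D.nm π r.q a' r.v ω) (D.cs π r ω)).th
        - ((D.raw π r.q.ds ω).mark D.s π r.q r.a (!r.σ.lin)).th| ≤ 45 * (D.s ^ r.h) ^ r.Rm ∧
    |(if r.σ.lin then (nmDsp D.s π r.q r.a r.v a' (D.nm π r.q a' r.v ω) (D.cs π r ω)).L
        else (nmDsp D.s π r.q r.a r.v a' (D.nm π r.q a' r.v ω) (D.cs π r ω)).R)
        - ((D.raw π r.q.ds ω).mark D.s π r.q r.a (!r.σ.lin)).r| ≤ 45 * (D.s ^ r.h) ^ r.Rm ∧
    |(if r.q.ds.cut = NmCut.slope then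
          ((D.nm π r.q a' r.v ω).kv D.s r.q a' - (D.cs π r ω).kv D.s r.q r.a) * D.s ^ (r.a - r.q.ds.b r.a) else 0)
        - ((D.raw π r.q.ds ω).mark D.s π r.q r.a (!r.σ.lin)).k| ≤ 45 * (D.s ^ r.h) ^ r.Rm := by
  have hd0 : 0 < D.s ^ r.h := Real.rpow_pos_of_pos hs.1 _
  obtain ⟨ε, hε⟩ : ∃ ε, ε = (D.s ^ r.h) ^ r.Rm := ⟨_, rfl⟩
  rw [← hε] at h1 h2 h3 h4 h5 h6 ⊢
  have hε0 : 0 < ε := by rw [hε]; exact Real.rpow_pos_of_pos hd0 _
  have hq : r.q.Ok π := nm_fam_ok π hπ r.q hok.q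
  have hg := hok.g0
  obtain ⟨x, hx⟩ : ∃ x, x = D.raw π r.q.ds ω := ⟨_, rfl⟩
  obtain ⟨n, hn⟩ : ∃ n, n = D.cs π r ω := ⟨_, rfl⟩
  obtain ⟨F, hF⟩ : ∃ F, F = D.fst π r (D.side π r.q r.σ r.a ω) := ⟨_, rfl⟩
  have hnm : D.nm π r.q a' r.v ω = x.name D.s π r.q a' r.v := by rw [hx]; rfl
  have hTx : |x.Te - x.T| ≤ D.s ^ a' := by rw [hx]; exact hT ω hω
  have hTa : |x.Te - x.T| ≤ D.s ^ r.a := hTx.trans (Real.rpow_le_rpow_of_exponent_ge hs.1 hs.2.le ha)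
  obtain ⟨hfr, hfrL⟩ := nm_gf_fr D π r ω hω
  rw [← hx, ← hn] at hfr hfrL
  have hFn : F.nrm ≤ 1 := by rw [hF]; exact nm_gf_bdF D π r hs hg ω hω
  have hcl : nmPhDist (x.phase D.s π r.q r.a r.v (!r.σ.lin) n) F ≤ ε := by
    rw [hx, hn, hF]; exact (hrep.close ω hω).trans h1
  have hcut : (!r.σ.lin) = true → r.q.ds.cut ≠ NmCut.none := by
    intro hl
    have hl' : r.σ.lin = false := by simpa using hl
    exact nm_gf_aux_read_cut hok.q (hok.brq hl').1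
  obtain ⟨m1, m2, m3⟩ := nm_gd_mark_bd hs.1 hs.2 π r.q r.a x (!r.σ.lin) hcut hTa
  have hst : D.smk π r ω = ⟨trep (D.s ^ r.h) r.Rm (x.mark D.s π r.q r.a (!r.σ.lin)).th,
      trep (D.s ^ r.h) r.Rm (x.mark D.s π r.q r.a (!r.σ.lin)).r,
      trep (D.s ^ r.h) r.Rm (x.mark D.s π r.q r.a (!r.σ.lin)).k⟩ := by
    rw [hx]
    exact nm_go_store_eq _ ⟨by rw [← hx]; linarith, by rw [← hx]; linarith, by rw [← hx]; linarith⟩
  rw [← hx, ← hn, ← hF, hnm]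
  have hμ : |(x.mark D.s π r.q r.a (!r.σ.lin)).th - (D.smk π r ω).th| ≤ ε ∧
      |(x.mark D.s π r.q r.a (!r.σ.lin)).r - (D.smk π r ω).r| ≤ ε := by
    rw [hst, hε]
    constructor
    · rw [abs_sub_comm]; exact nm_gk_trep hd0 _ _
    · rw [abs_sub_comm]; exact nm_gk_trep hd0 _ _
  have hth := nm_gd_th hs.1 hs.2 hq (v := r.v) ha x n hfr (!r.σ.lin) hTx
  obtain ⟨hk1, hk2⟩ := nm_gd_k hs.1 hs.2 hq (v := r.v) ha x n hfr (!r.σ.lin)
  have hkk : |(if r.q.ds.cut = NmCut.slope then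
          ((x.name D.s π r.q a' r.v).kv D.s r.q a' - n.kv D.s r.q r.a) * D.s ^ (r.a - r.q.ds.b r.a) else 0)
        - (x.mark D.s π r.q r.a (!r.σ.lin)).k| ≤ 45 * ε := by
    by_cases hc : r.q.ds.cut = NmCut.slope
    · rw [if_pos hc]
      have := (hk1 hc).trans (h4 hc)
      linarith
    · rw [if_neg hc, hk2 hc]
      simp only [sub_zero, abs_zero]
      positivity
  refine ⟨?_, hst, by linarith, ?_, hkk⟩
  · -- the fibre read
    cases hlin : r.σ.lin with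
    | false =>
      rw [hlin] at hcl hμ
      simp only [Bool.not_false] at hcl hμ ⊢
      have hc3 : r.c π = r.q.ds.bs := by unfold NmRt.c; rw [hlin]; simp
      rw [hc3] at h3
      exact nm_gr_pt_q hs.1 hs.2 hq hg ha x n hfr (hok.brq hlin).2 (hok'.brq hlin).2
        (nm_gf_aux_read_cut hok.q (hok.brq hlin).1) hTx F _ ε hFn hcl hμ h2 h3 h4 h6
    | true =>
      rw [hlin] at hcl hμ
      simp only [Bool.not_true] at hcl hμ ⊢
      have hc3 : r.c π = π.q - π.J := by unfold NmRt.c; rw [hlin]; simp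
      rw [hc3] at h3
      have hl : r.q.l π r.a r.v = π.b1 r.a :=
        nm_gf_aux_read_lin ((hok.brl hlin).imp id fun h => ⟨h.2.1, h.2.2⟩)
      have hl' : r.q.l π a' r.v = π.b1 a' :=
        nm_gf_aux_read_lin ((hok'.brl hlin).imp id fun h => ⟨h.2.1, h.2.2⟩)
      exact (nm_gr_pt_l hs.1 hs.2 hq hg ha x n hfr hl hl' (hfrL hlin hl) hTx F _ ε hFn hcl hμ h2 h3 (h5 hlin) h6).1
  · cases hlin : r.σ.lin with
    | false =>
      simp only [Bool.not_false, Bool.false_eq_true, if_false]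
      have hc3 : r.c π = r.q.ds.bs := by unfold NmRt.c; rw [hlin]; simp
      rw [hc3] at h3
      have := (nm_gd_quad hs.1 hs.2 hq ha x n hfr (hok.brq hlin).2
        (nm_gf_aux_read_cut hok.q (hok.brq hlin).1) hTx).1
      linarith
    | true =>
      rw [hlin] at hcl hμ
      simp only [Bool.not_true, if_true] at hcl hμ ⊢
      have hc3 : r.c π = π.q - π.J := by unfold NmRt.c; rw [hlin]; simp
      rw [hc3] at h3
      have hl : r.q.l π r.a r.v = π.b1 r.a :=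
        nm_gf_aux_read_lin ((hok.brl hlin).imp id fun h => ⟨h.2.1, h.2.2⟩)
      have hl' : r.q.l π a' r.v = π.b1 a' :=
        nm_gf_aux_read_lin ((hok'.brl hlin).imp id fun h => ⟨h.2.1, h.2.2⟩)
      have := (nm_gr_pt_l hs.1 hs.2 hq hg ha x n hfr hl hl' (hfrL hlin hl) hTx F _ ε hFn hcl hμ h2 h3 (h5 hlin) h6).2
      rw [abs_sub_comm]; exact this

/-- **X10**: the child name at `(a', v)` and `C_*` list the fibre read and the stored mark.   `ε = δ^Rm`.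
For a charged row: `x = D.raw ..`, `n = D.cs π r ω`, `d = nmDsp .. (D.nm π r.q a' r.v ω) n` is a FUNCTION OF THE CONDITIONING;  `nm_gf_fr`, `nm_gf_bdF`, `hrep.close`;  the exact mark is `≤ 3 ≤ r.B` (`nm_gd_mark_bd`), so the stored mark is its `trep` (`nm_go_store_eq`, `nm_gk_trep`);
fibre read: `nm_gr_pt_q` / `nm_gr_pt_l` + `nm_gq_itQ` + `nm_gk_tvec` (`m = 5`, `R = 480000`, depth `RQ ≤ Rm`);   stored mark: `nm_gd_th`, `nm_gd_quad` / `nm_gr_pt_l`, `nm_gd_k` + `nm_gk_tvec` (`m = 3`, `R = 90`, depth `Rm`);  `nm_gk_pair`.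
Branches from `hok`, `hok'` (`brq`, `brl`; `NmRt.c`).      LEAF L-256-NM-GRD-FR -/
theorem nm_gf_read (hπ : π.Valid) (Λ K0 e a' RQ : ℝ) (hok : r.Ok π Λ) (hok' : NmRt.Ok { r with a := a' } π Λ) (hrep : NmRep D π r K0 e) (ha : r.a ≤ a')
    (hT : ∀ ω, (D.P 1).p ω ≠ 0 → |(D.raw π r.q.ds ω).Te - (D.raw π r.q.ds ω).T| ≤ D.s ^ a')
    (hh : 0 < r.h) (hB : 3 ≤ r.B) (hRm : 0 ≤ r.Rm) (hRQ : RQ ≤ r.Rm)
    (h1 : D.s ^ e ≤ (D.s ^ r.h) ^ r.Rm) (h2 : D.s ^ (a' - r.a) ≤ (D.s ^ r.h) ^ r.Rm) (h3 : D.s ^ (r.c π * (a' - r.a)) ≤ (D.s ^ r.h) ^ r.Rm)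
    (h4 : r.q.ds.cut = NmCut.slope → D.s ^ ((r.q.ds.bs - 1) * (a' - r.a)) ≤ (D.s ^ r.h) ^ r.Rm)
    (h5 : r.σ.lin = true → (⟨D.s, π, r.q, r.a, r.v, a', r.v⟩ : NmG).cs * D.s ^ (r.v - r.q.l π r.a r.v) ≤ (D.s ^ r.h) ^ r.Rm)
    (h6 : 100 * (D.s ^ r.h) ^ r.Rm ≤ 1) :
    (D.P 1).NVal (fun _ => True)
      (pair (fun ω => itQ (!r.σ.lin) (D.s ^ r.h) RQ (D.fst π r (D.side π r.q r.σ r.a ω)) (D.smk π r ω)) (D.smk π r))
      (pair (D.nm π r.q a' r.v) (D.cs π r)) nmK1 := by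
  have hd0 : 0 < D.s ^ r.h := Real.rpow_pos_of_pos hs.1 _
  have hd1 : D.s ^ r.h < 1 := Real.rpow_lt_one hs.1.le hs.2 hh
  have hε0 : 0 < (D.s ^ r.h) ^ r.Rm := Real.rpow_pos_of_pos hd0 _
  have hε1 : (D.s ^ r.h) ^ r.Rm ≤ 1 := Real.rpow_le_one hd0.le hd1.le hRm
  have hεQ : (D.s ^ r.h) ^ r.Rm ≤ (D.s ^ r.h) ^ RQ := Real.rpow_le_rpow_of_exponent_ge hd0 hd1.le hRQ
  have key := nm_gf_aux_read_pt D π r hs hπ Λ K0 e a' hok hok' hrep ha hT hh hB hRm h1 h2 h3 h4 h5 h6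
  have tri : ∀ (u w z c : ℝ), |u - z| ≤ c → |w - z| ≤ c → |u - w| ≤ 2 * c := by
    intro u w z c hu hw
    have e1 : u - w = (u - z) - (w - z) := by ring
    rw [e1]
    exact (abs_sub _ _).trans (by linarith)
  -- the fibre read
  have L1 : (D.P 1).NVal (fun _ => True)
      (fun ω => itQ (!r.σ.lin) (D.s ^ r.h) RQ (D.fst π r (D.side π r.q r.σ r.a ω)) (D.smk π r ω))
      (pair (D.nm π r.q a' r.v) (D.cs π r)) ((4 * 480000 + 3) ^ 5) := by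
    refine nm_gk_tvec (D.P 1) _ 5 (fun ω => nmFib (!r.σ.lin) (D.fst π r (D.side π r.q r.σ r.a ω)) (D.smk π r ω))
      (D.s ^ r.h) 480000 (fun _ => RQ) hd0 hd1 (by norm_num) (nmFibQ (!r.σ.lin)) _
      (fun ω _ => nm_gq_itQ _ _ _ _ _) ?_
    intro ω ω' hω hω' hA j
    have hA1 : D.nm π r.q a' r.v ω = D.nm π r.q a' r.v ω' := congrArg Prod.fst hA
    have hA2 : D.cs π r ω = D.cs π r ω' := congrArg Prod.snd hA
    have k1 := (key ω hω).1 j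
    have k2 := (key ω' hω').1 j
    rw [← hA1, ← hA2] at k2
    have k3 := tri _ _ _ _ k1 k2
    have k4 : (D.s ^ r.h) ^ r.Rm ≤ min 1 ((D.s ^ r.h) ^ RQ) := le_min hε1 hεQ
    calc _ ≤ 2 * (240000 * (D.s ^ r.h) ^ r.Rm) := k3
      _ = 480000 * (D.s ^ r.h) ^ r.Rm := by ring
      _ ≤ _ := mul_le_mul_of_nonneg_left k4 (by norm_num)
  -- the stored mark
  have L2 : (D.P 1).NVal (fun _ => True) (D.smk π r) (pair (D.nm π r.q a' r.v) (D.cs π r)) ((4 * 90 + 3) ^ 3) := by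
    refine nm_gk_tvec (D.P 1) _ 3 (fun ω => ![((D.raw π r.q.ds ω).mark D.s π r.q r.a (!r.σ.lin)).th,
        ((D.raw π r.q.ds ω).mark D.s π r.q r.a (!r.σ.lin)).r, ((D.raw π r.q.ds ω).mark D.s π r.q r.a (!r.σ.lin)).k])
      (D.s ^ r.h) 90 (fun _ => r.Rm) hd0 hd1 (by norm_num)
      (fun z => ⟨(z 0 : ℝ) / 2 ^ (tlev (D.s ^ r.h) r.Rm), (z 1 : ℝ) / 2 ^ (tlev (D.s ^ r.h) r.Rm),
        (z 2 : ℝ) / 2 ^ (tlev (D.s ^ r.h) r.Rm)⟩) _ ?_ ?_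
    · intro ω hω
      rw [(key ω hω).2.1]
      simp [trep]
    · intro ω ω' hω hω' hA j
      have hA1 : D.nm π r.q a' r.v ω = D.nm π r.q a' r.v ω' := congrArg Prod.fst hA
      have hA2 : D.cs π r ω = D.cs π r ω' := congrArg Prod.snd hA
      obtain ⟨-, -, a1, a2, a3⟩ := key ω hω
      obtain ⟨-, -, b1, b2, b3⟩ := key ω' hω'
      rw [← hA1, ← hA2] at b1 b2 b3
      rw [abs_sub_comm] at a1 a2 a3 b1 b2 b3
      have k4 : min 1 ((D.s ^ r.h) ^ r.Rm) = (D.s ^ r.h) ^ r.Rm := min_eq_right hε1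
      rw [k4]
      have e90 : 90 * (D.s ^ r.h) ^ r.Rm = 2 * (45 * (D.s ^ r.h) ^ r.Rm) := by ring
      rw [e90]
      fin_cases j
      · exact tri _ _ _ _ a1 b1
      · exact tri _ _ _ _ a2 b2
      · exact tri _ _ _ _ a3 b3
  refine nm_gk_mono (D.P 1) (nm_gk_pair (D.P 1) (by norm_num) L1 L2) ?_
  unfold nmK1
  norm_num

end root

theorem nm_gf_eqns_cite : True := by
  have := @nmK1.eq_1
  trivial

end

end Claimed.Agent.R256
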